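import Mathlib

set_option autoImplicit false
set_option linter.unusedSectionVars false

/-! Hilbert hotel operators for row 91. -/

namespace Crest.Agent.R091

open scoped RealInnerProductSpace ENNReal

noncomputable section

/-- index set: level and cell number -/
abbrev I : Type := ℤ × ℕ

/-- the space of addresses -/
abbrev HH : Type := lp (fun _ : I => ℝ) 2

/-- the big Hilbert space -/
abbrev HA (A : Type) [NormedAddCommGroup A] : Type := lp (fun _ : I => A) 2

/-- a block -/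
abbrev Bk (K A : Type) [NormedAddCommGroup A] : Type := WithLp 2 (K × HA A)

/-- An orthogonal decomposition `A = K ⊕ A`. -/
structure Hotel (K A : Type) [NormedAddCommGroup K] [InnerProductSpace ℝ K]
    [NormedAddCommGroup A] [InnerProductSpace ℝ A] where
  c : K →L[ℝ] A
  s : A →L[ℝ] A
  norm_sq : ∀ x a, ‖c x + s a‖ ^ 2 = ‖x‖ ^ 2 + ‖a‖ ^ 2
  surj : ∀ b, ∃ x a, c x + s a = b

theorem lp2_hasSum {ι : Type} {E : Type} [NormedAddCommGroup E] (f : lp (fun _ : ι => E) 2) :
    HasSum (fun i => ‖f i‖ ^ 2) (‖f‖ ^ 2) := by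
  have := lp.hasSum_norm (p := 2) (by norm_num) f
  simpa using this

theorem mem_lp2 {ι : Type} {E : Type} [NormedAddCommGroup E] {f : ι → E}
    (h : Summable fun i => ‖f i‖ ^ 2) : Memℓp (E := fun _ : ι => E) f 2 := by
  apply memℓp_gen
  simpa using h

section Exists

variable (K : Type) [NormedAddCommGroup K] [InnerProductSpace ℝ K]

/-- shift -/
def shiftFun (a : lp (fun _ : ℕ => K) 2) : lp (fun _ : ℕ => K) 2 :=
  ⟨fun n => Nat.casesOn n 0 (fun m => a m), mem_lp2 (by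
    rw [← summable_nat_add_iff 1]
    exact (lp2_hasSum a).summable)⟩

theorem shiftFun_norm_sq (x : K) (a : lp (fun _ : ℕ => K) 2) :
    ‖lp.single 2 0 x + shiftFun K a‖ ^ 2 = ‖x‖ ^ 2 + ‖a‖ ^ 2 := by
  have h1 := lp2_hasSum (lp.single 2 0 x + shiftFun K a)
  have h2 : HasSum (fun n => ‖(lp.single 2 0 x + shiftFun K a : lp (fun _ : ℕ => K) 2) n‖ ^ 2)
      (‖x‖ ^ 2 + ‖a‖ ^ 2) := by
    rw [← hasSum_nat_add_iff' 1]
    have : (fun n => ‖(lp.single 2 0 x + shiftFun K a : lp (fun _ : ℕ => K) 2) (n + 1)‖ ^ 2)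
        = fun n => ‖a n‖ ^ 2 := by
      funext n
      simp [shiftFun, lp.single_apply]
    rw [this]
    have h0 : (lp.single 2 0 x + shiftFun K a : lp (fun _ : ℕ => K) 2) 0 = x := by
      simp [shiftFun, lp.single_apply]
    rw [Finset.range_one, Finset.sum_singleton, h0, add_sub_cancel_left]
    exact lp2_hasSum a
  exact h1.unique h2

/-- shift as a continuous linear map -/
def shiftCLM : lp (fun _ : ℕ => K) 2 →L[ℝ] lp (fun _ : ℕ => K) 2 :=
  LinearMap.mkContinuous
    { toFun := shiftFun K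
      map_add' := fun a b => by
        ext n; cases n <;> simp [shiftFun]
      map_smul' := fun r a => by
        ext n; cases n <;> simp [shiftFun] } 1 (fun a => by
      have := shiftFun_norm_sq K 0 a
      simp only [lp.single_zero, zero_add, norm_zero] at this
      have h : ‖shiftFun K a‖ = ‖a‖ := by
        have h2 : ‖shiftFun K a‖ ^ 2 = ‖a‖ ^ 2 := by simpa using this
        exact (sq_eq_sq₀ (norm_nonneg _) (norm_nonneg _)).1 h2
      simp [h])

/-- the hotel on `ℓ²(ℕ; K)` -/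
def stdHotel : Hotel K (lp (fun _ : ℕ => K) 2) where
  c := lp.singleContinuousLinearMap ℝ (fun _ : ℕ => K) 2 0
  s := shiftCLM K
  norm_sq := fun x a => shiftFun_norm_sq K x a
  surj := fun b => by
    refine ⟨b 0, ⟨fun n => b (n + 1), mem_lp2 ?_⟩, ?_⟩
    · exact (summable_nat_add_iff (f := fun n => ‖b n‖ ^ 2) 1).2 (lp2_hasSum b).summable
    · ext n
      cases n <;> simp [shiftCLM, shiftFun, lp.single_apply]

end Exists

variable {K A : Type} [NormedAddCommGroup K] [InnerProductSpace ℝ K]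
  [NormedAddCommGroup A] [InnerProductSpace ℝ A]

/-- `u ⊗ a` -/
def tens (u : HH) (a : A) : HA A :=
  ⟨fun i => u i • a, mem_lp2 (by
    have := (lp2_hasSum u).summable.mul_right (‖a‖ ^ 2)
    refine this.congr fun i => ?_
    rw [norm_smul, mul_pow])⟩

@[simp] theorem tens_apply (u : HH) (a : A) (i : I) : (tens u a) i = u i • a := rfl

theorem norm_tens (u : HH) (a : A) : ‖tens u a‖ = ‖u‖ * ‖a‖ := by
  have h1 := lp2_hasSum (tens u a)
  have h2 : HasSum (fun i => ‖(tens u a) i‖ ^ 2) (‖u‖ ^ 2 * ‖a‖ ^ 2) := by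
    have := (lp2_hasSum u).mul_right (‖a‖ ^ 2)
    refine this.congr_fun fun i => ?_
    rw [tens_apply, norm_smul, mul_pow]
  have := h1.unique h2
  rw [← mul_pow] at this
  exact (sq_eq_sq₀ (norm_nonneg _) (by positivity)).1 this

/-- `u ⊗ ·` as a bilinear continuous map -/
def iota : HH →L[ℝ] A →L[ℝ] HA A :=
  LinearMap.mkContinuous₂
    (LinearMap.mk₂ ℝ tens
      (fun u v a => by ext i; simp [add_smul])
      (fun r u a => by ext i; simp [mul_smul])
      (fun u a b => by ext i; simp [smul_add])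
      (fun r u a => by ext i; simp [smul_comm r])) 1
    (fun u a => by simp [norm_tens])

theorem iota_apply (u : HH) (a : A) : iota u a = tens u a := rfl

theorem iota_coe (u : HH) (a : A) (i : I) : (iota u a : HA A) i = u i • a := rfl

theorem norm_iota (u : HH) (a : A) : ‖(iota u a : HA A)‖ = ‖u‖ * ‖a‖ := norm_tens u a

variable [CompleteSpace A]

/-- contraction with `u` -/
def piu (u : HH) : HA A →L[ℝ] A := ContinuousLinearMap.adjoint (iota u)

theorem inner_piu (u : HH) (w : HA A) (a : A) : ⟪piu u w, a⟫ = ⟪w, iota u a⟫ :=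
  ContinuousLinearMap.adjoint_inner_left _ _ _

theorem norm_piu_le (u : HH) (w : HA A) : ‖piu u w‖ ≤ ‖u‖ * ‖w‖ := by
  have h : ‖piu u w‖ ^ 2 ≤ (‖u‖ * ‖w‖) * ‖piu u w‖ := by
    rw [← real_inner_self_eq_norm_sq, inner_piu]
    refine (real_inner_le_norm _ _).trans ?_
    rw [norm_iota]; nlinarith [norm_nonneg w, norm_nonneg u, norm_nonneg (piu u w)]
  rcases (norm_nonneg (piu u w)).eq_or_lt with h0 | h0
  · rw [← h0]; positivity
  · nlinarith

theorem piu_sub (u v : HH) (w : HA A) : piu (u - v) w = piu u w - piu v w := by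
  simp [piu, map_sub]

theorem piu_iota (u : HH) (a : A) : piu u (iota u a) = ‖u‖ ^ 2 • a := by
  refine ext_inner_right ℝ fun b => ?_
  rw [inner_piu, real_inner_smul_left]
  have h1 := lp.hasSum_inner (𝕜 := ℝ) (iota u a : HA A) (iota u b)
  have h2 : HasSum (fun i => ⟪(iota u a : HA A) i, (iota u b : HA A) i⟫) (‖u‖ ^ 2 * ⟪a, b⟫) := by
    have := (lp2_hasSum u).mul_right ⟪a, b⟫
    refine this.congr_fun fun i => ?_
    rw [iota_coe, iota_coe, real_inner_smul_left, real_inner_smul_right, Real.norm_eq_abs, sq_abs]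
    ring
  exact h1.unique h2

theorem piu_eq_sum (u : HH) (T : Finset I) (hT : ∀ i ∉ T, u i = 0) (w : HA A) :
    piu u w = ∑ i ∈ T, u i • w i := by
  refine ext_inner_right ℝ fun b => ?_
  rw [inner_piu, sum_inner, lp.inner_eq_tsum, tsum_eq_sum (s := T)]
  · refine Finset.sum_congr rfl fun i _ => ?_
    rw [iota_coe, real_inner_smul_left, real_inner_smul_right]
  · intro i hi
    rw [iota_coe, hT i hi, zero_smul, inner_zero_right]

variable (V : Hotel K A)

theorem Hotel.norm_le (x : K) (a : A) {b : ℝ} (hb : 0 ≤ b) (h : ‖x‖ ^ 2 + ‖a‖ ^ 2 ≤ b ^ 2) :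
    ‖V.c x + V.s a‖ ≤ b := by
  have := V.norm_sq x a
  exact (sq_le_sq₀ (norm_nonneg _) hb).1 (by linarith)

theorem Hotel.norm_s (a : A) : ‖V.s a‖ = ‖a‖ := by
  have := V.norm_sq 0 a
  simp only [map_zero, zero_add, norm_zero] at this
  exact (sq_eq_sq₀ (norm_nonneg _) (norm_nonneg _)).1 (by simpa using this)

theorem Hotel.norm_c (x : K) : ‖V.c x‖ = ‖x‖ := by
  have := V.norm_sq x 0
  simp only [map_zero, add_zero, norm_zero] at this
  exact (sq_eq_sq₀ (norm_nonneg _) (norm_nonneg _)).1 (by simpa using this)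

/-- the vector placed in the hotel -/
def core (u : HH) (z : Bk K A) : A := V.c z.fst + V.s (piu u z.snd) - piu u z.snd

/-- `Γ_u` -/
def Gam (u : HH) (z : Bk K A) : HA A := iota u (core V u z)

theorem Gam_sub (u : HH) (z z' : Bk K A) : Gam V u (z - z') = Gam V u z - Gam V u z' := by
  simp only [Gam, core, ← map_sub]
  congr 1
  simp only [WithLp.sub_fst, WithLp.sub_snd, map_sub]
  abel

theorem Gam_zero (u : HH) : Gam V u 0 = 0 := by
  simp [Gam, core]

theorem norm_core_le {u : HH} (hu : ‖u‖ ≤ 1) (z : Bk K A) : ‖core V u z‖ ≤ 2 * ‖z‖ := by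
  have h1 : ‖piu u z.snd‖ ≤ ‖z.snd‖ :=
    (norm_piu_le u _).trans (by nlinarith [norm_nonneg z.snd, norm_nonneg u])
  have h2 : ‖z.snd‖ ≤ ‖z‖ := WithLp.norm_snd_le _ z
  have h3 : ‖V.c z.fst + V.s (piu u z.snd)‖ ≤ ‖z‖ := by
    refine V.norm_le _ _ (norm_nonneg _) ?_
    rw [WithLp.prod_norm_sq_eq_of_L2]
    nlinarith [norm_nonneg (piu u z.snd)]
  calc ‖core V u z‖ ≤ ‖V.c z.fst + V.s (piu u z.snd)‖ + ‖piu u z.snd‖ := norm_sub_le _ _
    _ ≤ 2 * ‖z‖ := by linarith

theorem norm_Gam_le {u : HH} (hu : ‖u‖ ≤ 1) (z : Bk K A) : ‖Gam V u z‖ ≤ 2 * ‖z‖ := by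
  rw [Gam, norm_iota]
  have := norm_core_le V hu z
  nlinarith [norm_nonneg (core V u z), norm_nonneg u]

theorem norm_Gam_sub_le {u v : HH} (hu : ‖u‖ ≤ 1) (hv : ‖v‖ ≤ 1) (z : Bk K A) :
    ‖Gam V u z - Gam V v z‖ ≤ 4 * ‖u - v‖ * ‖z‖ := by
  have e : Gam V u z - Gam V v z
      = iota (u - v) (core V u z) + iota v (V.s (piu (u - v) z.snd) - piu (u - v) z.snd) := by
    have : core V u z - core V v z = V.s (piu (u - v) z.snd) - piu (u - v) z.snd := by
      simp only [core, piu_sub, map_sub]; abel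
    rw [← this]
    simp only [Gam, map_sub, sub_apply]
    abel
  have h2 : ‖z.snd‖ ≤ ‖z‖ := WithLp.norm_snd_le _ z
  have h3 : ‖piu (u - v) z.snd‖ ≤ ‖u - v‖ * ‖z‖ :=
    (norm_piu_le _ _).trans (by gcongr)
  have h4 : ‖V.s (piu (u - v) z.snd) - piu (u - v) z.snd‖ ≤ 2 * (‖u - v‖ * ‖z‖) := by
    refine (norm_sub_le _ _).trans ?_
    rw [V.norm_s]; linarith
  have h5 := norm_core_le V hu z
  rw [e]
  refine (norm_add_le _ _).trans ?_
  rw [norm_iota, norm_iota]
  have h6 : ‖u - v‖ * ‖core V u z‖ ≤ ‖u - v‖ * (2 * ‖z‖) := by gcongr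
  have h7 : ‖v‖ * ‖V.s (piu (u - v) z.snd) - piu (u - v) z.snd‖ ≤ 1 * (2 * (‖u - v‖ * ‖z‖)) := by
    gcongr
  nlinarith

theorem norm_add_Gam {u : HH} (hu : ‖u‖ = 1) (z : Bk K A) : ‖z.snd + Gam V u z‖ = ‖z‖ := by
  set w := z.snd
  set a := piu u w
  set b := V.c z.fst + V.s a
  have e : w + Gam V u z = (w - iota u a) + iota u b := by
    simp only [Gam, core, map_sub]; abel
  have hperp : ∀ c : A, ⟪w - iota u a, iota u c⟫ = 0 := by
    intro c
    rw [← inner_piu, map_sub, piu_iota, hu]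
    simp [a]
  have h1 : ‖w + Gam V u z‖ ^ 2 = ‖w - iota u a‖ ^ 2 + ‖b‖ ^ 2 := by
    rw [e, norm_add_sq_real, hperp, norm_iota, hu]; ring
  have h2 : ‖w‖ ^ 2 = ‖w - iota u a‖ ^ 2 + ‖a‖ ^ 2 := by
    have : w = (w - iota u a) + iota u a := by abel
    conv_lhs => rw [this]
    rw [norm_add_sq_real, hperp, norm_iota, hu]; ring
  have h3 : ‖b‖ ^ 2 = ‖z.fst‖ ^ 2 + ‖a‖ ^ 2 := V.norm_sq _ _
  have h4 := WithLp.prod_norm_sq_eq_of_L2 z
  refine (sq_eq_sq₀ (norm_nonneg _) (norm_nonneg _)).1 ?_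
  rw [h1, h4, h3]
  change _ = _ + ‖w‖ ^ 2
  rw [h2]; ring

theorem exists_add_Gam {u : HH} (hu : ‖u‖ = 1) (h : HA A) :
    ∃ z : Bk K A, z.snd + Gam V u z = h := by
  obtain ⟨x, a, hxa⟩ := V.surj (piu u h)
  refine ⟨WithLp.toLp 2 (x, h - iota u (piu u h) + iota u a), ?_⟩
  have hp : piu u (h - iota u (piu u h) + iota u a) = a := by
    rw [map_add, map_sub, piu_iota, piu_iota, hu]; simp
  simp only [Gam, core, WithLp.toLp_fst, WithLp.toLp_snd, hp, hxa, map_sub]
  abel

theorem Gam_apply_eq_zero {u : HH} {i : I} (hi : u i = 0) (z : Bk K A) : Gam V u z i = 0 := by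
  rw [Gam, iota_coe, hi, zero_smul]

/-- restriction to a set of indices -/
def res (T : Set I) (w : HA A) : HA A :=
  ⟨fun i => T.indicator (fun j => w j) i, (lp.memℓp w).mono' fun i => by
    by_cases hi : i ∈ T <;> simp [hi]⟩

omit [InnerProductSpace ℝ A] [CompleteSpace A] in
theorem res_apply (T : Set I) (w : HA A) (i : I) :
    res T w i = T.indicator (fun j => w j) i := rfl

omit [InnerProductSpace ℝ A] [CompleteSpace A] in
theorem norm_res_mono {T T' : Set I} (h : T ⊆ T') (w : HA A) : ‖res T w‖ ≤ ‖res T' w‖ := by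
  refine lp.norm_mono (by norm_num) fun i => ?_
  rw [res_apply, res_apply]
  by_cases hi : i ∈ T
  · simp [hi, h hi]
  · simp [hi]

omit [InnerProductSpace ℝ A] [CompleteSpace A] in
theorem norm_res_le (T : Set I) (w : HA A) : ‖res T w‖ ≤ ‖w‖ := by
  refine lp.norm_mono (by norm_num) fun i => ?_
  rw [res_apply]
  by_cases hi : i ∈ T <;> simp [hi]

omit [InnerProductSpace ℝ A] [CompleteSpace A] in
theorem norm_res_union_le (T T' : Set I) (w : HA A) :
    ‖res (T ∪ T') w‖ ≤ ‖res T w‖ + ‖res T' w‖ := by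
  have e : res (T ∪ T') w = res T w + res (T' \ T) w := by
    ext i
    simp only [lp.coeFn_add, Pi.add_apply, res_apply]
    by_cases hi : i ∈ T <;> by_cases hi' : i ∈ T' <;> simp [hi, hi']
  rw [e]
  exact (norm_add_le _ _).trans (by gcongr; exact norm_res_mono Set.sdiff_subset w)

omit [CompleteSpace A] in
theorem inner_res (T : Set I) (v w : HA A) : ⟪res T v, w⟫ = ⟪v, res T w⟫ := by
  rw [lp.inner_eq_tsum, lp.inner_eq_tsum]
  refine tsum_congr fun i => ?_
  rw [res_apply, res_apply]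
  by_cases hi : i ∈ T <;> simp [hi]

omit [InnerProductSpace ℝ A] [CompleteSpace A] in
theorem res_eq_self {T : Set I} {w : HA A} (h : ∀ i ∉ T, w i = 0) : res T w = w := by
  ext i
  rw [res_apply]
  by_cases hi : i ∈ T
  · simp [hi]
  · simp [hi, h i hi]

omit [InnerProductSpace ℝ A] [CompleteSpace A] in
theorem res_eq_zero {T : Set I} {w : HA A} (h : ∀ i ∈ T, w i = 0) : res T w = 0 := by
  ext i
  rw [res_apply]
  by_cases hi : i ∈ T
  · simp [hi, h i hi]
  · simp [hi]

omit [CompleteSpace A] in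
theorem res_smul (T : Set I) (r : ℝ) (w : HA A) : res T (r • w) = r • res T w := by
  ext i
  simp only [lp.coeFn_smul, Pi.smul_apply, res_apply]
  by_cases hi : i ∈ T <;> simp [hi]

omit [CompleteSpace A] in
theorem inner_res_finset (T : Finset I) (v w : HA A) :
    ⟪res (T : Set I) v, w⟫ = ∑ i ∈ T, ⟪v i, w i⟫ := by
  rw [lp.inner_eq_tsum, tsum_eq_sum (s := T)]
  · refine Finset.sum_congr rfl fun i hi => ?_
    rw [res_apply]; simp [hi]
  · intro i hi
    rw [res_apply]; simp [hi]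

/-- finite expansion of `⟪d|_T, Γ_u z⟫` -/
theorem inner_res_Gam (T T' : Finset I) (d : HA A) (u : HH)
    (hu : ∀ i ∈ T, u i ≠ 0 → ∀ j ∉ T', u j = 0) (z : Bk K A) :
    ⟪res (T : Set I) d, Gam V u z⟫ = ∑ i ∈ T, u i * ⟪d i, V.c z.fst⟫
      + ∑ i ∈ T, ∑ j ∈ T', u i * (u j * ⟪d i, V.s (z.snd j) - z.snd j⟫) := by
  rw [inner_res_finset, ← Finset.sum_add_distrib]
  refine Finset.sum_congr rfl fun i hi => ?_
  rw [Gam, iota_coe, real_inner_smul_right, ← Finset.mul_sum, ← mul_add]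
  by_cases h0 : u i = 0
  · simp [h0]
  congr 1
  rw [core, piu_eq_sum u T' (hu i hi h0), add_sub_assoc, inner_add_right]
  congr 1
  rw [map_sum, ← Finset.sum_sub_distrib, inner_sum]
  refine Finset.sum_congr rfl fun j _ => ?_
  rw [map_smul, ← smul_sub, real_inner_smul_right]

end

end Crest.Agent.R091
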