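import Crest.Agent.R091.Loc
import Crest.Agent.R091.Hotel

set_option autoImplicit false

/-! Slowly varying unit vectors recording scale and location. -/

namespace Crest.Agent.R091

open Finset Filter
open scoped RealInnerProductSpace

noncomputable section

variable {M : Type} [NormedAddCommGroup M]

/-- normalisation -/
def nrm (a : HH) : HH := ‖a‖⁻¹ • a

theorem norm_nrm {a : HH} (ha : 0 < ‖a‖) : ‖nrm a‖ = 1 := by
  rw [nrm, norm_smul, norm_inv, norm_norm, inv_mul_cancel₀ ha.ne']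

theorem nrm_ne_zero {a : HH} {i : I} (h : nrm a i ≠ 0) : a i ≠ 0 := by
  intro h0
  apply h
  simp [nrm, h0]

theorem norm_nrm_sub {a b : HH} {c : ℝ} (hc : 0 < c) (ha : c ≤ ‖a‖) (hb : c ≤ ‖b‖) :
    ‖nrm a - nrm b‖ ≤ 2 / c * ‖a - b‖ := by
  have ha0 : 0 < ‖a‖ := hc.trans_le ha
  have hb0 : 0 < ‖b‖ := hc.trans_le hb
  have e : nrm a - nrm b = ‖a‖⁻¹ • (a - b) + (‖a‖⁻¹ - ‖b‖⁻¹) • b := by
    simp only [nrm, smul_sub, sub_smul]; abel
  have h1 : ‖‖a‖⁻¹ • (a - b)‖ = ‖a - b‖ / ‖a‖ := by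
    rw [norm_smul, norm_inv, norm_norm, inv_mul_eq_div]
  have h2 : ‖(‖a‖⁻¹ - ‖b‖⁻¹) • b‖ ≤ ‖a - b‖ / ‖a‖ := by
    have e2 : ‖a‖⁻¹ - ‖b‖⁻¹ = -(‖a‖ - ‖b‖) / (‖a‖ * ‖b‖) := by field_simp; ring
    rw [norm_smul, Real.norm_eq_abs, e2, abs_div, abs_neg, abs_of_pos (mul_pos ha0 hb0)]
    have := abs_norm_sub_norm_le a b
    calc |‖a‖ - ‖b‖| / (‖a‖ * ‖b‖) * ‖b‖ = |‖a‖ - ‖b‖| / ‖a‖ := by field_simp
      _ ≤ _ := by gcongr
  have h3 : ‖a - b‖ / ‖a‖ ≤ ‖a - b‖ / c := by gcongr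
  rw [e]
  refine (norm_add_le _ _).trans ?_
  have : 2 / c * ‖a - b‖ = ‖a - b‖ / c + ‖a - b‖ / c := by ring
  linarith

theorem exists_level (Λ : Loc M) {r : ℝ} (hr : 0 < r) : ∃ (ν : ℕ) (L : ℝ) (v : ℤ → M → HH),
    ∀ k, (∀ p, ‖v k p‖ = 1) ∧ (∀ p q, ‖v k p - v k q‖ ≤ L * Λ.D p q) ∧
      (∀ p i, v k p i ≠ 0 → i.1 = k ∧ i.2 < ν) ∧
      ∀ p q i, v k p i ≠ 0 → v k q i ≠ 0 → Λ.D p q ≤ 4 * r := by
  obtain ⟨N, hN⟩ := Λ.net r hr
  let c : ℕ → M := fun j => N.toList.getD j 0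
  have hc : ∀ q ∈ N, ∃ j < N.card, c j = q := by
    intro q hq
    obtain ⟨j, hj, e⟩ := List.getElem_of_mem (Finset.mem_toList.2 hq)
    refine ⟨j, by simpa using hj, ?_⟩
    simp only [c]
    rw [List.getD_eq_getElem _ _ hj, e]
  let φ : ℕ → M → ℝ := fun j p => max (2 * r - Λ.D p (c j)) 0
  let a : ℤ → M → HH := fun k p => ∑ j ∈ range N.card, lp.single 2 ((k, j) : I) (φ j p)
  have ha : ∀ k p (i : I), a k p i = if i.1 = k ∧ i.2 < N.card then φ i.2 p else 0 := by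
    rintro k p ⟨k', j'⟩
    simp only [a, lp.coeFn_sum, Finset.sum_apply, lp.single_apply, Pi.single_apply, Prod.mk.injEq]
    by_cases hk : k' = k
    · simp [hk]
    · simp [hk]
  have hlow : ∀ k p, r ≤ ‖a k p‖ := by
    intro k p
    obtain ⟨q, hq, hpq⟩ := hN p
    obtain ⟨j, hj, rfl⟩ := hc q hq
    have h1 := lp.norm_apply_le_norm (by norm_num) (a k p) (k, j)
    rw [ha, if_pos ⟨rfl, hj⟩] at h1
    refine le_trans ?_ ((Real.le_norm_self _).trans h1)
    exact le_max_of_le_left (by linarith)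
  refine ⟨N.card, 2 / r * N.card, fun k p => nrm (a k p), fun k => ⟨fun p => norm_nrm
    (hr.trans_le (hlow k p)), fun p q => ?_, fun p i hi => ?_, fun p q i hp hq => ?_⟩⟩
  · refine (norm_nrm_sub hr (hlow k p) (hlow k q)).trans ?_
    rw [mul_assoc]
    gcongr
    simp only [a, ← sum_sub_distrib, ← lp.single_sub]
    refine (norm_sum_le _ _).trans ?_
    have : ∀ j ∈ range N.card,
        ‖(lp.single 2 ((k, j) : I) (φ j p - φ j q) : HH)‖ ≤ Λ.D p q := fun j _ => by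
      rw [lp.norm_single (by norm_num), Real.norm_eq_abs]
      refine (abs_max_sub_max_le_abs _ _ _).trans ?_
      have := Λ.abs_sub_le q p (c j)
      rw [Λ.comm q p] at this
      have e : 2 * r - Λ.D p (c j) - (2 * r - Λ.D q (c j)) = Λ.D q (c j) - Λ.D p (c j) := by ring
      rwa [e]
    simpa using sum_le_card_nsmul _ _ _ this
  · have := nrm_ne_zero hi
    rw [ha] at this
    by_contra h
    exact this (if_neg h)
  · have aux : ∀ p, nrm (a k p) i ≠ 0 → Λ.D p (c i.2) ≤ 2 * r := by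
      intro p hp
      have := nrm_ne_zero hp
      rw [ha] at this
      by_contra h
      apply this
      split_ifs
      · exact max_eq_right (by linarith [not_le.1 h])
      · rfl
    have := Λ.tri p (c i.2) q
    rw [Λ.comm (c i.2)] at this
    linarith [aux p hp, aux q hq]

theorem exists_levels (Λ : Loc M) (ℓ : ℤ → ℝ) (hℓ : ∀ k, 0 ≤ ℓ k)
    (hℓ' : Tendsto ℓ atBot atTop) : ∃ (ν : ℤ → ℕ) (v : ℤ → M → HH),
    (∀ k p, ‖v k p‖ = 1) ∧ (∀ k p q, ‖v k p - v k q‖ ≤ ℓ k * Λ.D p q) ∧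
      (∀ k p i, v k p i ≠ 0 → i.1 = k ∧ i.2 < ν k) ∧
      ∀ δ > (0 : ℝ), ∀ᶠ k in atBot, ∀ p q i, v k p i ≠ 0 → v k q i ≠ 0 → Λ.D p q ≤ δ := by
  classical
  choose ν L w hw using fun s : ℕ => exists_level Λ (r := 1 / ((s : ℝ) + 1)) (by positivity)
  let s : ℤ → ℕ := fun k => Nat.findGreatest (fun s => L s ≤ ℓ k) ⌊ℓ k⌋₊
  refine ⟨fun k => ν (s k) + 1,
    fun k p => if L (s k) ≤ ℓ k then w (s k) k p else lp.single 2 ((k, 0) : I) 1,
    fun k p => ?_, fun k p q => ?_, fun k p i hi => ?_, fun δ hδ => ?_⟩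
  · dsimp only
    split_ifs
    · exact (hw _ k).1 p
    · rw [lp.norm_single (by norm_num)]; simp
  · have hD := Λ.nonneg p q
    dsimp only
    split_ifs with h
    · exact ((hw _ k).2.1 p q).trans (by gcongr)
    · rw [sub_self, norm_zero]; exact mul_nonneg (hℓ k) hD
  · dsimp only at hi
    split_ifs at hi with h
    · have := (hw _ k).2.2.1 p i hi
      exact ⟨this.1, Nat.lt_succ_of_lt this.2⟩
    · by_cases h2 : i = (k, 0)
      · subst h2; simp
      · exact absurd (lp.single_apply_ne 2 _ _ h2) hi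
  · obtain ⟨s₀, hs₀⟩ := exists_nat_one_div_lt (show 0 < δ / 4 by positivity)
    filter_upwards [hℓ'.eventually (eventually_ge_atTop (max (s₀ : ℝ) (L s₀)))] with k hk p q i hp hq
    have h1 : s₀ ≤ ⌊ℓ k⌋₊ := Nat.le_floor ((le_max_left _ _).trans hk)
    have h2 : L s₀ ≤ ℓ k := (le_max_right _ _).trans hk
    have h3 : L (s k) ≤ ℓ k := Nat.findGreatest_spec (P := fun s => L s ≤ ℓ k) h1 h2
    have h4 : s₀ ≤ s k := Nat.le_findGreatest h1 h2
    rw [if_pos h3] at hp hq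
    have h5 := (hw _ k).2.2.2 p q i hp hq
    have h6 : 1 / ((s k : ℝ) + 1) ≤ 1 / ((s₀ : ℝ) + 1) := by gcongr
    linarith

/-- hat function -/
def hat (t : ℝ) : ℝ := max (1 - |t|) 0

theorem hat_nonneg (t : ℝ) : 0 ≤ hat t := le_max_right _ _

theorem hat_le_one (t : ℝ) : hat t ≤ 1 := max_le (by linarith [abs_nonneg t]) zero_le_one

theorem hat_ne_zero {t : ℝ} (h : hat t ≠ 0) : |t| < 1 := by
  by_contra h1
  exact h (max_eq_right (by linarith [not_lt.1 h1]))

theorem abs_hat_sub (s t : ℝ) : |hat s - hat t| ≤ |s - t| := by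
  refine (abs_max_sub_max_le_abs _ _ _).trans ?_
  have := abs_abs_sub_abs_le_abs_sub t s
  rw [abs_sub_comm t s] at this
  convert this using 2; ring

theorem mem_pair_of_abs_lt {t : ℝ} {k : ℤ} (h : |t - k| < 1) : k ∈ ({⌊t⌋, ⌊t⌋ + 1} : Finset ℤ) := by
  rw [abs_lt] at h
  have h1 := Int.floor_le t
  have h2 := Int.lt_floor_add_one t
  have h3 : (⌊t⌋ : ℝ) < (k : ℝ) + 1 := by linarith
  have h4 : (k : ℝ) < (⌊t⌋ : ℝ) + 2 := by linarith
  have h5 : ⌊t⌋ < k + 1 := by exact_mod_cast h3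
  have h6 : k < ⌊t⌋ + 2 := by exact_mod_cast h4
  simp only [mem_insert, mem_singleton]
  omega

/-- the address map -/
structure Addr (Λ : Loc M) (η : ℝ) where
  u : ℝ → M → HH
  ν : ℤ → ℕ
  norm : ∀ t p, ‖u t p‖ = 1
  supp : ∀ t p i, u t p i ≠ 0 → |t - i.1| < 1 ∧ i.2 < ν i.1
  lip : ∀ t t' p p', ‖u t p - u t' p'‖ ≤ 16 * (|t - t'| + η * Real.exp (-t' / η) * Λ.D p p')
  prop : ∀ δ > (0 : ℝ), ∃ t₀ : ℝ, ∀ t ≤ t₀, ∀ t' p p' i, u t p i ≠ 0 → u t' p' i ≠ 0 → Λ.D p p' ≤ δ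

theorem exists_addr (Λ : Loc M) {η : ℝ} (hη : 0 < η) : Nonempty (Addr Λ η) := by
  obtain ⟨ν, v, hv1, hv2, hv3, hv4⟩ := exists_levels Λ (fun k => η * Real.exp (-((k : ℝ) + 1) / η))
    (fun k => by positivity) (by
      refine Tendsto.const_mul_atTop hη (Real.tendsto_exp_atTop.comp ?_)
      refine Tendsto.atTop_div_const hη (tendsto_neg_atBot_atTop.comp ?_)
      exact tendsto_atBot_add_const_right _ _ (tendsto_intCast_atBot_iff.2 tendsto_id))
  let a : ℝ → M → HH := fun t p => ∑ k ∈ ({⌊t⌋, ⌊t⌋ + 1} : Finset ℤ), hat (t - k) • v k p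
  have ha : ∀ t p (S : Finset ℤ), {⌊t⌋, ⌊t⌋ + 1} ⊆ S → a t p = ∑ k ∈ S, hat (t - k) • v k p := by
    intro t p S hS
    refine sum_subset hS fun k _ hk => ?_
    by_contra h
    exact hk (mem_pair_of_abs_lt (hat_ne_zero fun h0 => h (by rw [h0, zero_smul])))
  have hcoe : ∀ t p (i : I), a t p i = hat (t - i.1) * v i.1 p i := by
    intro t p i
    rw [ha t p (insert i.1 {⌊t⌋, ⌊t⌋ + 1}) (subset_insert _ _), lp.coeFn_sum, Finset.sum_apply,
      sum_eq_single i.1]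
    · simp
    · intro k _ hk
      have : v k p i = 0 := by
        by_contra h
        exact hk (hv3 k p i h).1.symm
      simp [this]
    · simp
  have hlow : ∀ t p, 1 / 2 ≤ ‖a t p‖ := by
    intro t p
    have h1 : 1 / 2 ≤ hat (t - round t) := le_max_of_le_left (by linarith [abs_sub_round t])
    have h2 : ‖(1 / 2 : ℝ) • v (round t) p‖ ≤ ‖a t p‖ := by
      refine lp.norm_mono (by norm_num) fun i => ?_
      rw [hcoe, lp.coeFn_smul, Pi.smul_apply, norm_smul, norm_mul]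
      by_cases h : v (round t) p i = 0
      · rw [h, norm_zero, mul_zero]; positivity
      · rw [(hv3 _ p i h).1, Real.norm_of_nonneg (hat_nonneg _), Real.norm_of_nonneg (by norm_num)]
        gcongr
    rw [norm_smul, hv1] at h2
    simpa using h2
  have hne : ∀ t p i, nrm (a t p) i ≠ 0 → |t - i.1| < 1 ∧ v i.1 p i ≠ 0 := by
    intro t p i h
    have := nrm_ne_zero h
    rw [hcoe, mul_ne_zero_iff] at this
    exact ⟨hat_ne_zero this.1, this.2⟩
  refine ⟨⟨fun t p => nrm (a t p), ν, fun t p => norm_nrm (by linarith [hlow t p]),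
    fun t p i h => ⟨(hne t p i h).1, (hv3 _ p i (hne t p i h).2).2⟩, fun t t' p p' => ?_,
    fun δ hδ => ?_⟩⟩
  · refine (norm_nrm_sub (by norm_num) (hlow t p) (hlow t' p')).trans ?_
    set S : Finset ℤ := {⌊t⌋, ⌊t⌋ + 1} ∪ {⌊t'⌋, ⌊t'⌋ + 1}
    have hS : S.card ≤ 4 := (card_union_le _ _).trans (add_le_add card_le_two card_le_two)
    have hD := Λ.nonneg p p'
    set b := |t - t'| + η * Real.exp (-t' / η) * Λ.D p p' with hb
    have hb0 : 0 ≤ b := by positivity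
    have key : ∀ k ∈ S, ‖hat (t - k) • v k p - hat (t' - k) • v k p'‖ ≤ b := by
      intro k _
      have e : hat (t - k) • v k p - hat (t' - k) • v k p'
          = (hat (t - k) - hat (t' - k)) • v k p + hat (t' - k) • (v k p - v k p') := by
        simp only [sub_smul, smul_sub]; abel
      rw [e]
      refine (norm_add_le _ _).trans (add_le_add ?_ ?_)
      · rw [norm_smul, hv1, mul_one, Real.norm_eq_abs]
        simpa using abs_hat_sub (t - k) (t' - k)
      · rw [norm_smul, Real.norm_of_nonneg (hat_nonneg _)]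
        by_cases h0 : hat (t' - k) = 0
        · rw [h0, zero_mul]; positivity
        · have h1 := (abs_lt.1 (hat_ne_zero h0)).2
          have h2 : Real.exp (-((k : ℝ) + 1) / η) ≤ Real.exp (-t' / η) := by
            gcongr; linarith
          calc hat (t' - k) * ‖v k p - v k p'‖ ≤ 1 * (η * Real.exp (-((k : ℝ) + 1) / η) * Λ.D p p') := by
                gcongr
                exacts [hat_le_one _, hv2 k p p']
            _ ≤ _ := by rw [one_mul]; gcongr
    have h1 : ‖a t p - a t' p'‖ ≤ 4 * b := by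
      rw [ha t p S subset_union_left, ha t' p' S subset_union_right, ← sum_sub_distrib]
      refine (norm_sum_le _ _).trans ((sum_le_card_nsmul _ _ _ key).trans ?_)
      rw [nsmul_eq_mul]
      have : (S.card : ℝ) ≤ 4 := by exact_mod_cast hS
      gcongr
    linarith
  · obtain ⟨k₀, hk₀⟩ := eventually_atBot.1 (hv4 δ hδ)
    refine ⟨k₀ - 1, fun t ht t' p p' i h h' => hk₀ i.1 ?_ p p' i (hne _ _ _ h).2 (hne _ _ _ h').2⟩
    have h1 := (abs_lt.1 (hne _ _ _ h).1).1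
    have : (i.1 : ℝ) < k₀ := by linarith
    exact_mod_cast this.le

namespace Addr

variable {Λ : Loc M} {η : ℝ} (𝒜 : Addr Λ η)

theorem finite_supp (t : ℝ) (p : M) : {i | 𝒜.u t p i ≠ 0}.Finite := by
  refine (({⌊t⌋, ⌊t⌋ + 1} : Finset ℤ).biUnion
    fun k => ({k} : Finset ℤ) ×ˢ range (𝒜.ν k)).finite_toSet.subset fun i hi => ?_
  have := 𝒜.supp t p i hi
  simp only [coe_biUnion, Set.mem_iUnion, mem_coe, mem_product, mem_singleton, mem_range]
  exact ⟨i.1, mem_pair_of_abs_lt this.1, rfl, this.2⟩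

theorem lip_log (hη : 0 < η) {b b' : ℝ} (hb' : 0 < b') (hb : b' ≤ b) (p p' : M) :
    ‖𝒜.u (η * Real.log b) p - 𝒜.u (η * Real.log b') p'‖ * b' ≤ 16 * η * (b - b' + Λ.D p p') := by
  have h1 := 𝒜.lip (η * Real.log b) (η * Real.log b') p p'
  have e : Real.exp (-(η * Real.log b') / η) = b'⁻¹ := by
    rw [neg_div, mul_div_cancel_left₀ _ hη.ne', Real.exp_neg, Real.exp_log hb']
  have h2 : |η * Real.log b - η * Real.log b'| ≤ η * ((b - b') / b') := by
    rw [← mul_sub, abs_mul, abs_of_pos hη,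
      abs_of_nonneg (sub_nonneg.2 (Real.log_le_log hb' hb)), ← Real.log_div (by linarith) hb'.ne']
    gcongr
    have := Real.log_le_sub_one_of_pos (show 0 < b / b' from div_pos (by linarith) hb')
    rw [sub_div, div_self hb'.ne']; exact this
  rw [e] at h1
  calc _ ≤ 16 * (η * ((b - b') / b') + η * b'⁻¹ * Λ.D p p') * b' := by
        gcongr
        linarith
    _ = _ := by field_simp

end Addr

end

end Crest.Agent.R091
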