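import Crest.Agent.R091.Signs

set_option autoImplicit false

/-! Utilities on `c₀` and separability. -/

namespace Crest.Agent.R091

open Filter Finset TopologicalSpace
open scoped Topology ZeroAtInfty ENNReal

noncomputable section

variable {E : Type} [NormedAddCommGroup E]

/-- element of `c₀` from a null sequence -/
def c0mk (f : ℕ → E) (h : Tendsto f atTop (𝓝 0)) : C₀(ℕ, E) :=
  ⟨⟨f, continuous_of_discreteTopology⟩, by
    rw [cocompact_eq_cofinite, Nat.cofinite_eq_atTop]; exact h⟩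

@[simp] theorem c0mk_apply (f : ℕ → E) (h : Tendsto f atTop (𝓝 0)) (n : ℕ) : c0mk f h n = f n := rfl

theorem c0_tendsto (p : C₀(ℕ, E)) : Tendsto p atTop (𝓝 0) := by
  have := zero_at_infty p
  rwa [cocompact_eq_cofinite, Nat.cofinite_eq_atTop] at this

theorem c0_apply_le (p : C₀(ℕ, E)) (n : ℕ) : ‖p n‖ ≤ ‖p‖ :=
  p.toBCF.norm_coe_le_norm n

theorem c0_norm_le {p : C₀(ℕ, E)} {C : ℝ} (hC : 0 ≤ C) (h : ∀ n, ‖p n‖ ≤ C) : ‖p‖ ≤ C :=
  (BoundedContinuousFunction.norm_le (f := p.toBCF) hC).2 h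

theorem c0_sub_apply_le (p q : C₀(ℕ, E)) (n : ℕ) : ‖p n - q n‖ ≤ ‖p - q‖ := c0_apply_le (p - q) n

theorem tendsto_of_norm_le {F : Type} [NormedAddCommGroup F] {f : ℕ → F} (p : C₀(ℕ, E)) (C : ℝ)
    (h : ∀ n, ‖f n‖ ≤ C * ‖p n‖) : Tendsto f atTop (𝓝 0) :=
  squeeze_zero_norm h (by simpa using (c0_tendsto p).norm.const_mul C)

/-- a single coordinate -/
def c0single (i : ℕ) (e : E) : C₀(ℕ, E) :=
  c0mk (Pi.single i e) (tendsto_const_nhds.congr' (by
    filter_upwards [eventually_gt_atTop i] with n hn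
    rw [Pi.single_eq_of_ne hn.ne']))

theorem c0single_apply (i : ℕ) (e : E) (n : ℕ) : c0single i e n = (Pi.single i e : ℕ → E) n := rfl

theorem c0_sum_apply {ι : Type} (s : Finset ι) (f : ι → C₀(ℕ, E)) (n : ℕ) :
    (∑ i ∈ s, f i) n = ∑ i ∈ s, f i n := by
  classical
  induction s using Finset.induction_on with
  | empty => simp
  | insert a s ha ih => simp [sum_insert ha, ih]

theorem le_norm_c0single (i : ℕ) (e : E) : ‖e‖ ≤ ‖c0single i e‖ := by
  have := c0_apply_le (c0single i e) i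
  rwa [c0single_apply, Pi.single_eq_same] at this

theorem bss_c0single [NormedSpace ℝ E] (e : E) : BSS (fun i => c0single i e) ‖e‖ := by
  intro F ε hε
  refine c0_norm_le (norm_nonneg _) fun n => ?_
  rw [c0_sum_apply]
  simp only [ZeroAtInftyContinuousMap.smul_apply, c0single_apply, Pi.single_apply, smul_ite,
    smul_zero, sum_ite_eq]
  split_ifs
  · rw [norm_smul, Real.norm_eq_abs]; nlinarith [hε n, norm_nonneg e, abs_nonneg (ε n)]
  · simp

/-- evaluation -/
def c0eval [NormedSpace ℝ E] (n : ℕ) : C₀(ℕ, E) →L[ℝ] E :=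
  LinearMap.mkContinuous
    { toFun := fun p => p n, map_add' := fun _ _ => rfl, map_smul' := fun _ _ => rfl } 1
    (fun p => by simpa using c0_apply_le p n)

theorem isSeparable_finsetSum {X ι : Type} [NormedAddCommGroup X] [SeparableSpace E]
    (f : ι → E → X) (hf : ∀ i, Continuous (f i)) (s : Finset ι) :
    IsSeparable (Set.range fun a : s → E => ∑ i : s, f i (a i)) :=
  isSeparable_range (continuous_finsetSum _ fun i _ => (hf i).comp (continuous_apply i))

theorem separable_of_sums {X ι : Type} [Countable ι] [NormedAddCommGroup X] [SeparableSpace E]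
    (f : ι → E → X) (hf : ∀ i, Continuous (f i))
    (h : ∀ x : X, ∀ ε > (0 : ℝ), ∃ (s : Finset ι) (a : ι → E), ‖x - ∑ i ∈ s, f i (a i)‖ < ε) :
    SeparableSpace X := by
  rw [← isSeparable_univ_iff]
  refine (IsSeparable.iUnion fun s : Finset ι => isSeparable_finsetSum f hf s).closure.mono ?_
  intro x _
  rw [Metric.mem_closure_iff]
  intro ε hε
  obtain ⟨s, a, hs⟩ := h x ε hε
  refine ⟨_, Set.mem_iUnion.2 ⟨s, fun i => a i, rfl⟩, ?_⟩
  rw [dist_eq_norm]
  simpa [Finset.sum_coe_sort s fun i => f i (a i)] using hs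

theorem separable_lp2 {ι : Type} [Countable ι] [SeparableSpace E] :
    SeparableSpace (lp (fun _ : ι => E) 2) := by
  classical
  refine separable_of_sums (fun i (e : E) => lp.single 2 i e)
    (fun i => (lp.isometry_single (E := fun _ : ι => E) i).continuous) fun x ε hε => ?_
  have := lp.hasSum_single (p := 2) (by norm_num) x
  obtain ⟨s, hs⟩ := (Metric.tendsto_nhds.1 this ε hε).exists
  exact ⟨s, x, by rwa [dist_eq_norm, norm_sub_rev] at hs⟩

theorem separable_c0 [SeparableSpace E] : SeparableSpace C₀(ℕ, E) := by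
  refine separable_of_sums (fun i (e : E) => c0single i e) (fun i => ?_) fun x ε hε => ?_
  · refine (LipschitzWith.of_dist_le_mul (K := 1) fun a b => ?_).continuous
    rw [dist_eq_norm, dist_eq_norm, NNReal.coe_one, one_mul]
    refine c0_norm_le (norm_nonneg _) fun n => ?_
    simp only [ZeroAtInftyContinuousMap.sub_apply, c0single_apply, Pi.single_apply]
    split_ifs <;> simp
  · obtain ⟨N, hN⟩ := eventually_atTop.1
      (Metric.tendsto_nhds.1 (c0_tendsto x) (ε / 2) (by positivity))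
    refine ⟨range N, x, lt_of_le_of_lt (c0_norm_le (C := ε / 2) (by positivity) fun n => ?_)
      (by linarith)⟩
    rw [ZeroAtInftyContinuousMap.sub_apply, c0_sum_apply]
    simp only [c0single_apply, Pi.single_apply, sum_ite_eq, mem_range]
    split_ifs with h
    · simp; positivity
    · simpa using (hN n (not_lt.1 h)).le

/-- tail supremum, also recording large norms -/
def sig (m : ℕ) (p : C₀(ℕ, E)) : ℝ := max (⨆ n, ‖p (n + m)‖) (‖p‖ - m)

theorem bdd_tail (m : ℕ) (p : C₀(ℕ, E)) : BddAbove (Set.range fun n => ‖p (n + m)‖) :=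
  ⟨‖p‖, by rintro _ ⟨n, rfl⟩; exact c0_apply_le p _⟩

theorem le_sig {m n : ℕ} (h : m ≤ n) (p : C₀(ℕ, E)) : ‖p n‖ ≤ sig m p := by
  obtain ⟨k, rfl⟩ := Nat.exists_eq_add_of_le' h
  exact le_max_of_le_left (le_ciSup (bdd_tail m p) k)

theorem sig_nonneg (m : ℕ) (p : C₀(ℕ, E)) : 0 ≤ sig m p := (norm_nonneg _).trans (le_sig le_rfl p)

theorem norm_sub_le_sig (m : ℕ) (p : C₀(ℕ, E)) : ‖p‖ - m ≤ sig m p := le_max_right _ _

theorem sig_anti {m m' : ℕ} (h : m ≤ m') (p : C₀(ℕ, E)) : sig m' p ≤ sig m p := by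
  refine max_le (ciSup_le fun n => le_sig (by omega) p) (le_trans ?_ (norm_sub_le_sig m p))
  have : (m : ℝ) ≤ m' := by exact_mod_cast h
  linarith

theorem sig_zero (m : ℕ) : sig m (0 : C₀(ℕ, E)) = 0 := by
  simp [sig]

theorem sig_le_add (m : ℕ) (p q : C₀(ℕ, E)) : sig m p ≤ sig m q + ‖p - q‖ := by
  refine max_le (ciSup_le fun n => ?_) ?_
  · have h1 := c0_sub_apply_le p q (n + m)
    have h2 := le_sig (show m ≤ n + m by omega) q
    linarith [norm_sub_norm_le (p (n + m)) (q (n + m))]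
  · linarith [norm_sub_le_sig m q, norm_sub_norm_le p q]

theorem sig_lip (m : ℕ) (p q : C₀(ℕ, E)) : |sig m p - sig m q| ≤ ‖p - q‖ := by
  have h1 := sig_le_add m p q
  have h2 := sig_le_add m q p
  rw [norm_sub_rev] at h2
  rw [abs_le]
  constructor <;> linarith

theorem sig_tendsto (p : C₀(ℕ, E)) : Tendsto (fun m => sig m p) atTop (𝓝 0) := by
  rw [Metric.tendsto_nhds]
  intro ε hε
  obtain ⟨N, hN⟩ := eventually_atTop.1
    (Metric.tendsto_nhds.1 (c0_tendsto p) (ε / 2) (by positivity))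
  filter_upwards [eventually_ge_atTop N,
    tendsto_natCast_atTop_atTop.eventually (eventually_ge_atTop ‖p‖)] with m h1 h2
  rw [dist_zero_right, Real.norm_of_nonneg (sig_nonneg m p)]
  refine lt_of_le_of_lt (max_le (ciSup_le fun n => ?_) ?_) (show ε / 2 < ε by linarith)
  · simpa using (hN (n + m) (by omega)).le
  · linarith

end

end Crest.Agent.R091
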