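import Crest.Agent.R091.Addr
import Crest.Agent.R091.C0

set_option autoImplicit false
set_option linter.unusedSectionVars false

/-! The rotated blocks and their cuts. -/

namespace Crest.Agent.R091

open Filter Finset TopologicalSpace
open scoped Topology ZeroAtInfty RealInnerProductSpace

noncomputable section

/-- rotation speed -/
def eta : ℝ := 1 / 2000

theorem eta_pos : 0 < eta := by unfold eta; norm_num

/-- cut ratio -/
def SS : ℝ := 2 * Real.exp (5 / eta)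

theorem four_le_SS : 4 ≤ SS := by
  have := Real.add_one_le_exp (5 / eta)
  have h : (1 : ℝ) ≤ 5 / eta := by unfold eta; norm_num
  unfold SS; linarith

theorem one_le_SS : 1 ≤ SS := by linarith [four_le_SS]

theorem SS_pos : 0 < SS := by linarith [four_le_SS]

section Lam

variable {E : Type} [NormedAddCommGroup E]

/-- the cut radii -/
def lam (n : ℕ) : List ℕ → C₀(ℕ, E) → ℝ
  | [], p => ‖p n‖
  | m :: l, p => min (lam n l p) (max (SS ^ (l.length + 1) * sig m p - ‖p n‖) 0)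

theorem lam_nonneg (n : ℕ) (l : List ℕ) (p : C₀(ℕ, E)) : 0 ≤ lam n l p := by
  induction l with
  | nil => exact norm_nonneg _
  | cons m l ih => exact le_min ih (le_max_right _ _)

theorem lam_cons_le (n m : ℕ) (l : List ℕ) (p : C₀(ℕ, E)) : lam n (m :: l) p ≤ lam n l p :=
  min_le_left _ _

theorem lam_le (n : ℕ) (l : List ℕ) (p : C₀(ℕ, E)) : lam n l p ≤ ‖p n‖ := by
  induction l with
  | nil => exact le_rfl
  | cons m l ih => exact (lam_cons_le n m l p).trans ih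

theorem rho_lip (n : ℕ) (p q : C₀(ℕ, E)) : |‖p n‖ - ‖q n‖| ≤ ‖p - q‖ :=
  (abs_norm_sub_norm_le _ _).trans (c0_sub_apply_le p q n)

theorem lam_lip (n : ℕ) (l : List ℕ) (p q : C₀(ℕ, E)) :
    |lam n l p - lam n l q| ≤ (SS ^ l.length + 1) * ‖p - q‖ := by
  have hd := norm_nonneg (p - q)
  induction l with
  | nil =>
    have := rho_lip n p q
    simp only [lam, List.length_nil, pow_zero]; linarith
  | cons m l ih =>
    have h1 : SS ^ l.length ≤ SS ^ (l.length + 1) := pow_le_pow_right₀ one_le_SS (by omega)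
    refine (abs_min_sub_min_le_max _ _ _ _).trans (max_le (ih.trans ?_) ?_)
    · rw [List.length_cons]; gcongr
    · refine (abs_max_sub_max_le_abs _ _ _).trans ?_
      have e : SS ^ (l.length + 1) * sig m p - ‖p n‖ - (SS ^ (l.length + 1) * sig m q - ‖q n‖)
          = SS ^ (l.length + 1) * (sig m p - sig m q) - (‖p n‖ - ‖q n‖) := by ring
      rw [e, List.length_cons]
      refine (abs_sub _ _).trans ?_
      have hS : 0 < SS ^ (l.length + 1) := pow_pos SS_pos _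
      rw [abs_mul, abs_of_pos hS]
      have h2 : SS ^ (l.length + 1) * |sig m p - sig m q| ≤ SS ^ (l.length + 1) * ‖p - q‖ := by
        gcongr; exact sig_lip m p q
      linarith [rho_lip n p q]

theorem lam_pos_imp {n : ℕ} {l : List ℕ} {p : C₀(ℕ, E)} (h : 0 < lam n l p) :
    ∀ m ∈ l, ‖p n‖ < SS ^ l.length * sig m p := by
  induction l with
  | nil => simp
  | cons m l ih =>
    intro m' hm'
    rcases List.mem_cons.1 hm' with rfl | hm'
    · have h1 := h.trans_le (min_le_right _ _)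
      rw [lt_max_iff] at h1
      rw [List.length_cons]
      linarith [h1.resolve_right (lt_irrefl _)]
    · refine (ih (h.trans_le (lam_cons_le _ _ _ _)) m' hm').trans_le ?_
      have := sig_nonneg m' p
      rw [List.length_cons]
      gcongr
      exacts [one_le_SS, Nat.le_succ _]

theorem lam_cut_imp {n m : ℕ} {l : List ℕ} {p : C₀(ℕ, E)} (h : lam n (m :: l) p < lam n l p) :
    SS ^ (l.length + 1) * sig m p < 2 * ‖p n‖ := by
  have h1 := (min_lt_iff.1 h).resolve_left (lt_irrefl _)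
  linarith [le_max_left (SS ^ (l.length + 1) * sig m p - ‖p n‖) 0, lam_le n l p]

theorem lam_cut_imp' {n m : ℕ} {l : List ℕ} {p : C₀(ℕ, E)} (h : lam n (m :: l) p < lam n l p) :
    SS * sig m p < 2 * ‖p n‖ := by
  refine lt_of_le_of_lt ?_ (lam_cut_imp h)
  have := sig_nonneg m p
  gcongr
  exact le_self_pow₀ one_le_SS (by omega)

theorem lam_cons_le_sig (n m : ℕ) (l : List ℕ) (p : C₀(ℕ, E)) :
    lam n (m :: l) p ≤ SS ^ (l.length + 1) * sig m p := by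
  refine (min_le_right _ _).trans (max_le (by linarith [norm_nonneg (p n)]) ?_)
  exact mul_nonneg (pow_pos SS_pos _).le (sig_nonneg m p)

theorem lam_lb {Λ : Loc C₀(ℕ, E)} (h1 : ∀ n, Λ.LB fun p => ‖p n‖) (h2 : ∀ m, Λ.LB (sig m))
    (n : ℕ) (l : List ℕ) : Λ.LB (lam n l) := by
  induction l with
  | nil => exact h1 n
  | cons m l ih =>
    exact ih.min ((((Loc.LB.const _).mul (h2 m)).sub (h1 n)).max (Loc.LB.const 0))

end Lam

variable {K A : Type} [NormedAddCommGroup K] [InnerProductSpace ℝ K]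
  [NormedAddCommGroup A] [InnerProductSpace ℝ A] [CompleteSpace A]

/-- the base space -/
abbrev MM (K A : Type) [NormedAddCommGroup K] [NormedAddCommGroup A] : Type := C₀(ℕ, Bk K A)

variable (V : Hotel K A) {Λ : Loc (MM K A)} (𝒜 : Addr Λ eta)

/-- address of the `n`-th block -/
def un (n : ℕ) (p : MM K A) : HH := 𝒜.u (eta * Real.log ‖p n‖) p

/-- the `n`-th block of `Γ` -/
def Gn (n : ℕ) (p : MM K A) : HA A := Gam V (un 𝒜 n p) (p n)

theorem norm_Gn_le (n : ℕ) (p : MM K A) : ‖Gn V 𝒜 n p‖ ≤ 2 * ‖p n‖ :=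
  norm_Gam_le V (𝒜.norm _ _).le _

theorem rot_aux {b b' : ℝ} (hb : b' ≤ b) (p p' : MM K A) (z : Bk K A) (hz : ‖z‖ = b') :
    ‖Gam V (𝒜.u (eta * Real.log b) p) z - Gam V (𝒜.u (eta * Real.log b') p') z‖
      ≤ 1 / 20 * (b - b' + ‖p - p'‖) := by
  have hd := norm_nonneg (p - p')
  rcases (norm_nonneg z).eq_or_lt with h0 | h0
  · rw [norm_eq_zero.1 h0.symm, Gam_zero, Gam_zero, sub_self, norm_zero]
    linarith
  · refine (norm_Gam_sub_le V (𝒜.norm _ _).le (𝒜.norm _ _).le z).trans ?_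
    have h1 := 𝒜.lip_log eta_pos (hz ▸ h0) hb p p'
    have h2 := Λ.le p p'
    rw [hz, mul_assoc]
    unfold eta at h1 ⊢
    nlinarith

theorem rot {n : ℕ} {p p' : MM K A} (h : ‖p' n‖ ≤ ‖p n‖) :
    ‖Gam V (un 𝒜 n p) (p' n) - Gn V 𝒜 n p'‖ ≤ 1 / 10 * ‖p - p'‖ := by
  refine (rot_aux V 𝒜 h p p' (p' n) rfl).trans ?_
  linarith [le_abs_self (‖p n‖ - ‖p' n‖), rho_lip n p p']

theorem Gn_lip (n : ℕ) (p p' : MM K A) : ‖Gn V 𝒜 n p - Gn V 𝒜 n p'‖ ≤ 21 / 10 * ‖p - p'‖ := by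
  have aux : ∀ p p' : MM K A, ‖p' n‖ ≤ ‖p n‖ →
      ‖Gn V 𝒜 n p - Gn V 𝒜 n p'‖ ≤ 21 / 10 * ‖p - p'‖ := by
    intro p p' h
    have e : Gn V 𝒜 n p - Gn V 𝒜 n p'
        = Gam V (un 𝒜 n p) (p n - p' n) + (Gam V (un 𝒜 n p) (p' n) - Gn V 𝒜 n p') := by
      rw [Gam_sub, Gn]; abel
    rw [e]
    refine (norm_add_le _ _).trans ?_
    linarith [norm_Gam_le V (𝒜.norm (eta * Real.log ‖p n‖) p).le (p n - p' n), rot V 𝒜 h,
      c0_sub_apply_le p p' n, show un 𝒜 n p = 𝒜.u (eta * Real.log ‖p n‖) p from rfl,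
      (show ‖Gam V (un 𝒜 n p) (p n - p' n)‖ ≤ 2 * ‖p n - p' n‖ from
        norm_Gam_le V (𝒜.norm _ _).le _)]
  rcases le_total ‖p' n‖ ‖p n‖ with h | h
  · exact aux p p' h
  · rw [norm_sub_rev, norm_sub_rev p]; exact aux p' p h

theorem Un_lower (n : ℕ) (p p' : MM K A) :
    ‖p n - p' n‖ ≤ ‖((p n).snd + Gn V 𝒜 n p) - ((p' n).snd + Gn V 𝒜 n p')‖ + 1 / 10 * ‖p - p'‖ := by
  have aux : ∀ p p' : MM K A, ‖p' n‖ ≤ ‖p n‖ → ‖p n - p' n‖
      ≤ ‖((p n).snd + Gn V 𝒜 n p) - ((p' n).snd + Gn V 𝒜 n p')‖ + 1 / 10 * ‖p - p'‖ := by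
    intro p p' h
    have e : (p n - p' n).snd + Gam V (un 𝒜 n p) (p n - p' n)
        = (((p n).snd + Gn V 𝒜 n p) - ((p' n).snd + Gn V 𝒜 n p'))
          - (Gam V (un 𝒜 n p) (p' n) - Gn V 𝒜 n p') := by
      rw [Gam_sub, Gn, WithLp.sub_snd]; abel
    rw [← norm_add_Gam V (u := un 𝒜 n p) (𝒜.norm _ _) (p n - p' n), e]
    refine (norm_sub_le _ _).trans ?_
    linarith [rot V 𝒜 h]
  rcases le_total ‖p' n‖ ‖p n‖ with h | h
  · exact aux p p' h
  · rw [norm_sub_rev, norm_sub_rev ((p n).snd + Gn V 𝒜 n p), norm_sub_rev p]; exact aux p' p h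

/-- radially shrunk block -/
def Bl (n : ℕ) (f : MM K A → ℝ) (p : MM K A) : HA A := (f p / ‖p n‖) • Gn V 𝒜 n p

theorem norm_Bl_le (n : ℕ) {f : MM K A → ℝ} {p : MM K A} (h : 0 ≤ f p) :
    ‖Bl V 𝒜 n f p‖ ≤ 2 * f p := by
  rw [Bl, norm_smul, Real.norm_of_nonneg (div_nonneg h (norm_nonneg _))]
  rcases (norm_nonneg (p n)).eq_or_lt with h0 | h0
  · rw [← h0, div_zero, zero_mul]; linarith
  · calc f p / ‖p n‖ * ‖Gn V 𝒜 n p‖ ≤ f p / ‖p n‖ * (2 * ‖p n‖) := by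
          gcongr; exact norm_Gn_le V 𝒜 n p
      _ = 2 * f p := by field_simp

theorem Bl_lip (n : ℕ) {f : MM K A → ℝ} {ℓ : ℝ} (hℓ : 0 ≤ ℓ) (h0 : ∀ p, 0 ≤ f p)
    (h1 : ∀ p, f p ≤ ‖p n‖) (h2 : ∀ p q, |f p - f q| ≤ ℓ * ‖p - q‖) (p p' : MM K A) :
    ‖Bl V 𝒜 n f p - Bl V 𝒜 n f p'‖ ≤ (21 / 10 + 2 * (ℓ + 1)) * ‖p - p'‖ := by
  have hd := norm_nonneg (p - p')
  have hr := rho_lip n p p'
  have aux : ∀ p p' : MM K A, ‖p n‖ = 0 →
      ‖Bl V 𝒜 n f p - Bl V 𝒜 n f p'‖ ≤ (21 / 10 + 2 * (ℓ + 1)) * ‖p - p'‖ := by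
    intro p p' h
    have e : Bl V 𝒜 n f p = 0 := by rw [Bl, h, div_zero, zero_smul]
    have hr := rho_lip n p p'
    rw [h, zero_sub, abs_neg, abs_norm] at hr
    rw [e, zero_sub, norm_neg]
    nlinarith [norm_Bl_le V 𝒜 n (h0 p'), h1 p', norm_nonneg (p - p')]
  rcases (norm_nonneg (p n)).eq_or_lt with hp | hp
  · exact aux p p' hp.symm
  rcases (norm_nonneg (p' n)).eq_or_lt with hp' | hp'
  · rw [norm_sub_rev, norm_sub_rev p]; exact aux p' p hp'.symm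
  have e : Bl V 𝒜 n f p - Bl V 𝒜 n f p' = (f p / ‖p n‖) • (Gn V 𝒜 n p - Gn V 𝒜 n p')
      + (f p / ‖p n‖ - f p' / ‖p' n‖) • Gn V 𝒜 n p' := by
    simp only [Bl, smul_sub, sub_smul]; abel
  have hμ : f p / ‖p n‖ ≤ 1 := (div_le_one hp).2 (h1 p)
  have hμ0 : 0 ≤ f p / ‖p n‖ := div_nonneg (h0 p) hp.le
  have a1 : ‖(f p / ‖p n‖) • (Gn V 𝒜 n p - Gn V 𝒜 n p')‖ ≤ 1 * (21 / 10 * ‖p - p'‖) := by
    rw [norm_smul, Real.norm_of_nonneg hμ0]
    gcongr
    exact Gn_lip V 𝒜 n p p'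
  have a2 : |f p / ‖p n‖ - f p' / ‖p' n‖| * ‖p' n‖ ≤ (ℓ + 1) * ‖p - p'‖ := by
    have e2 : (f p / ‖p n‖ - f p' / ‖p' n‖) * ‖p' n‖
        = (f p - f p') - f p / ‖p n‖ * (‖p n‖ - ‖p' n‖) := by field_simp; ring
    rw [← abs_of_pos hp', ← abs_mul, abs_of_pos hp', e2]
    refine (abs_sub _ _).trans ?_
    rw [abs_mul, abs_of_nonneg hμ0]
    have : f p / ‖p n‖ * |‖p n‖ - ‖p' n‖| ≤ 1 * ‖p - p'‖ := by gcongr
    linarith [h2 p p']
  have a3 : ‖(f p / ‖p n‖ - f p' / ‖p' n‖) • Gn V 𝒜 n p'‖ ≤ 2 * ((ℓ + 1) * ‖p - p'‖) := by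
    rw [norm_smul, Real.norm_eq_abs]
    calc _ ≤ |f p / ‖p n‖ - f p' / ‖p' n‖| * (2 * ‖p' n‖) := by
          gcongr; exact norm_Gn_le V 𝒜 n p'
      _ ≤ _ := by linarith
  rw [e]
  refine (norm_add_le _ _).trans ?_
  linarith

theorem Bl_apply_eq_zero {n : ℕ} (f : MM K A → ℝ) {p : MM K A} {i : I} (h : un 𝒜 n p i = 0) :
    Bl V 𝒜 n f p i = 0 := by
  rw [Bl, lp.coeFn_smul, Pi.smul_apply, Gn, Gam_apply_eq_zero V h, smul_zero]

/-- weights -/
def wt (r : ℕ) : ℝ := 1 / (10 * (2 * SS) ^ r)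

theorem wt_pos (r : ℕ) : 0 < wt r := by
  have := SS_pos
  unfold wt; positivity

theorem wt_le (r : ℕ) : wt r ≤ 1 / 10 := by
  have : 1 ≤ (2 * SS) ^ r := one_le_pow₀ (by linarith [one_le_SS])
  unfold wt
  rw [div_le_div_iff₀ (by positivity) (by norm_num)]
  linarith

/-- atoms of the first kind -/
def blk (x : ℕ × List ℕ) (p : MM K A) : HA A := wt x.2.length • Bl V 𝒜 x.1 (lam x.1 x.2) p

theorem blk_lip (x : ℕ × List ℕ) (p p' : MM K A) :
    ‖blk V 𝒜 x p - blk V 𝒜 x p'‖ ≤ (1 / 2) ^ x.2.length * ‖p - p'‖ := by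
  obtain ⟨n, l⟩ := x
  have hS : 1 ≤ SS ^ l.length := one_le_pow₀ one_le_SS
  have h := Bl_lip V 𝒜 n (f := lam n l) (ℓ := SS ^ l.length + 1) (by linarith) (lam_nonneg n l)
    (lam_le n l) (lam_lip n l) p p'
  simp only [blk, ← smul_sub, norm_smul, Real.norm_of_nonneg (wt_pos _).le]
  have hd := norm_nonneg (p - p')
  calc wt l.length * ‖Bl V 𝒜 n (lam n l) p - Bl V 𝒜 n (lam n l) p'‖
      ≤ wt l.length * ((10 * SS ^ l.length) * ‖p - p'‖) := by
        have := (wt_pos l.length).le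
        gcongr
        exact h.trans (by gcongr; linarith)
    _ = (1 / 2) ^ l.length * ‖p - p'‖ := by
        have := SS_pos
        rw [wt, mul_pow, one_div_pow]; field_simp

theorem blk_lip_one (x : ℕ × List ℕ) (p p' : MM K A) :
    ‖blk V 𝒜 x p - blk V 𝒜 x p'‖ ≤ ‖p - p'‖ := by
  refine (blk_lip V 𝒜 x p p').trans (mul_le_of_le_one_left (norm_nonneg _) ?_)
  exact pow_le_one₀ (by norm_num) (by norm_num)

theorem norm_blk_le (x : ℕ × List ℕ) (p : MM K A) : ‖blk V 𝒜 x p‖ ≤ lam x.1 x.2 p := by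
  rw [blk, norm_smul, Real.norm_of_nonneg (wt_pos _).le]
  have h1 := norm_Bl_le V 𝒜 x.1 (f := lam x.1 x.2) (lam_nonneg x.1 x.2 p)
  have h2 := wt_le x.2.length
  nlinarith [lam_nonneg x.1 x.2 p, norm_nonneg (Bl V 𝒜 x.1 (lam x.1 x.2) p), wt_pos x.2.length]

theorem blk_zero (x : ℕ × List ℕ) : blk V 𝒜 x 0 = 0 := by
  have h := (norm_blk_le V 𝒜 x 0).trans (lam_le _ _ _)
  exact norm_le_zero_iff.1 (by simpa using h)

theorem blk_nil (n : ℕ) (p : MM K A) : blk V 𝒜 (n, []) p = (1 / 10 : ℝ) • Gn V 𝒜 n p := by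
  have hw : wt 0 = 1 / 10 := by simp [wt]
  simp only [blk, Bl, lam, List.length_nil, hw]
  congr 1
  rcases (norm_nonneg (p n)).eq_or_lt with h0 | h0
  · have := norm_Gn_le V 𝒜 n p
    rw [← h0, mul_zero, norm_le_zero_iff] at this
    rw [this, smul_zero]
  · rw [div_self h0.ne', one_smul]

theorem blk_apply_eq_zero (x : ℕ × List ℕ) {p : MM K A} {i : I} (h : un 𝒜 x.1 p i = 0) :
    blk V 𝒜 x p i = 0 := by
  rw [blk, lp.coeFn_smul, Pi.smul_apply, Bl_apply_eq_zero V 𝒜 _ h, smul_zero]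

/-- the cut block -/
def cut (n : ℕ) (l : List ℕ) (m : ℕ) (p : MM K A) : HA A :=
  blk V 𝒜 (n, l) p - (2 * SS) • blk V 𝒜 (n, m :: l) p

theorem cut_eq (n : ℕ) (l : List ℕ) (m : ℕ) (p : MM K A) :
    cut V 𝒜 n l m p
      = (wt l.length * ((lam n l p - lam n (m :: l) p) / ‖p n‖)) • Gn V 𝒜 n p := by
  have hw : 2 * SS * wt (l.length + 1) = wt l.length := by
    have := SS_pos
    unfold wt; rw [pow_succ]; field_simp
  simp only [cut, blk, Bl, smul_smul, List.length_cons, ← sub_smul]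
  congr 1
  rw [← mul_assoc, hw]; ring

theorem cut_lip (n : ℕ) (l : List ℕ) (m : ℕ) (p p' : MM K A) :
    ‖cut V 𝒜 n l m p - cut V 𝒜 n l m p'‖ ≤ (1 + 2 * SS) * ‖p - p'‖ := by
  have e : cut V 𝒜 n l m p - cut V 𝒜 n l m p' = (blk V 𝒜 (n, l) p - blk V 𝒜 (n, l) p')
      - (2 * SS) • (blk V 𝒜 (n, m :: l) p - blk V 𝒜 (n, m :: l) p') := by
    simp only [cut, smul_sub]; abel
  have hS := SS_pos
  rw [e]
  refine (norm_sub_le _ _).trans ?_
  rw [norm_smul, Real.norm_of_nonneg (by positivity)]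
  nlinarith [blk_lip_one V 𝒜 (n, l) p p', blk_lip_one V 𝒜 (n, m :: l) p p']

theorem cut_ne_zero {n : ℕ} {l : List ℕ} {m : ℕ} {p : MM K A} (h : cut V 𝒜 n l m p ≠ 0) :
    lam n (m :: l) p < lam n l p := by
  refine lt_of_le_of_ne (lam_cons_le n m l p) fun h1 => h ?_
  rw [cut_eq, h1, sub_self, zero_div, mul_zero, zero_smul]

theorem cut_apply_eq_zero (n : ℕ) (l : List ℕ) (m : ℕ) {p : MM K A} {i : I}
    (h : un 𝒜 n p i = 0) : cut V 𝒜 n l m p i = 0 := by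
  rw [cut_eq, lp.coeFn_smul, Pi.smul_apply, Gn, Gam_apply_eq_zero V h, smul_zero]

theorem norm_cut_le (n : ℕ) (l : List ℕ) (m : ℕ) (p : MM K A) : ‖cut V 𝒜 n l m p‖ ≤ ‖p n‖ := by
  have e : cut V 𝒜 n l m p
      = wt l.length • Bl V 𝒜 n (fun p => lam n l p - lam n (m :: l) p) p := by
    rw [cut_eq, Bl, smul_smul]
  have h0 := sub_nonneg.2 (lam_cons_le n m l p)
  have h1 := norm_Bl_le V 𝒜 n (f := fun p => lam n l p - lam n (m :: l) p) (p := p) h0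
  rw [e, norm_smul, Real.norm_of_nonneg (wt_pos _).le]
  have h2 := wt_le l.length
  have h3 := lam_le n l p
  have h4 := lam_nonneg n (m :: l) p
  nlinarith [norm_nonneg (Bl V 𝒜 n (fun p => lam n l p - lam n (m :: l) p) p), wt_pos l.length,
    norm_nonneg (p n)]

theorem inner_res_ne_zero {T : Set I} {d h : HA A} (h0 : ⟪res T d, h⟫ ≠ 0) : ∃ i ∈ T, h i ≠ 0 := by
  by_contra h1
  push Not at h1
  exact h0 (by rw [inner_res, res_eq_zero h1, inner_zero_right])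

end

end Crest.Agent.R091
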