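import Crest.Agent.R091.DFJP

set_option autoImplicit false

/-! Criteria for `Comb`. -/

namespace Crest.Agent.R091

open scoped Topology
open Filter Finset

variable {M Q : Type} [NormedAddCommGroup M] [NormedAddCommGroup Q] [NormedSpace ℝ Q]

theorem tendsto_of_cspan {X α E : Type} [NormedAddCommGroup E] [NormedSpace ℝ E] {G : X → Q}
    {l : Filter α} (T : α → Q →L[ℝ] E) {C : ℝ} (hT : ∀ a y, ‖T a y‖ ≤ C * ‖y‖)
    (h : ∀ p, Tendsto (fun a => T a (G p)) l (𝓝 0)) {y : Q} (hy : y ∈ cspan G) :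
    Tendsto (fun a => T a y) l (𝓝 0) := by
  let W : Submodule ℝ Q :=
    { carrier := {y | Tendsto (fun a => T a y) l (𝓝 0)}
      add_mem' := fun {a b} ha hb => by
        simpa [map_add] using Tendsto.add ha hb
      zero_mem' := by simpa using tendsto_const_nhds
      smul_mem' := fun r a ha => by
        simpa [map_smul] using Tendsto.const_smul ha r }
  have hW : IsClosed (W : Set Q) := by
    refine isClosed_of_closure_subset fun z hz => ?_
    change Tendsto (fun a => T a z) l (𝓝 0)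
    rw [Metric.tendsto_nhds]
    intro ε hε
    have hC : 0 < |C| + 1 := by positivity
    obtain ⟨w, hw, hzw⟩ := Metric.mem_closure_iff.1 hz (ε / 2 / (|C| + 1)) (by positivity)
    have hw' : Tendsto (fun a => T a w) l (𝓝 0) := hw
    filter_upwards [Metric.tendsto_nhds.1 hw' (ε / 2) (by positivity)] with a ha
    rw [dist_zero_right] at ha ⊢
    have e : T a z = T a w + T a (z - w) := by simp
    have h1 := hT a (z - w)
    rw [dist_eq_norm, lt_div_iff₀ hC] at hzw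
    have h2 : C * ‖z - w‖ ≤ ‖z - w‖ * (|C| + 1) := by
      nlinarith [le_abs_self C, norm_nonneg (z - w)]
    rw [e]
    linarith [norm_add_le (T a w) (T a (z - w))]
  exact cspan_le hW h hy

theorem eq_zero_of_cspan {X E : Type} [NormedAddCommGroup E] [NormedSpace ℝ E] {G : X → Q}
    (T : Q →L[ℝ] E) (h : ∀ p, T (G p) = 0) {y : Q} (hy : y ∈ cspan G) : T y = 0 :=
  (cspan_le (W := LinearMap.ker (T : Q →ₗ[ℝ] E)) T.isClosed_ker h) hy

theorem exists_seq_filter {X : Type} (F : Filter X) [F.NeBot] {P : X → Prop} {R : X → X → Prop}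
    (hP : ∀ᶠ x in F, P x) (hR : ∀ᶠ x in F, ∀ᶠ x' in F, R x x') :
    ∃ f : ℕ → X, (∀ n, P (f n)) ∧ ∀ m n, m < n → R (f m) (f n) := by
  obtain ⟨f, hf1, hf2⟩ := exists_seq_of_forall_finset_exists
    (fun x => P x ∧ ∀ᶠ x' in F, R x x') R (fun s hs => by
      have : ∀ᶠ y in F, ∀ x ∈ s, R x y := (eventually_all_finset s).2 fun x hx => (hs x hx).2
      exact ((hP.and hR).and this).exists)
  exact ⟨f, fun n => (hf1 n).1, hf2⟩

theorem comb_of_seq {G : M → Q} {y : ℕ → Q} {c K C : ℝ} (hc : 0 < c) (hC : 0 ≤ C)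
    (h : ∀ ε > (0 : ℝ), ∃ (ι : ℕ → ℕ) (φ : ℕ → Q →L[ℝ] ℝ), Function.Injective ι ∧
      (∀ j, c ≤ φ j (y (ι j))) ∧ (∀ j, ‖φ j‖ ≤ K) ∧ ∀ p p' : M, ∃ B : Finset ℕ, B.card ≤ 2 ∧
        (∀ j ∈ B, |φ j (G p) - φ j (G p')| ≤ C * ‖p - p'‖) ∧
        ∀ j ∉ B, |φ j (G p) - φ j (G p')| ≤ ε * ‖p - p'‖) : Comb G y := by
  refine ⟨c, K, 2 * C, hc, fun ε hε => ?_⟩
  obtain ⟨ι, φ, h1, h2, h3, h4⟩ := h ε hε
  refine ⟨ι, φ, h1, h2, h3, fun N σ hσ p p' => ?_⟩
  obtain ⟨B, hB, hB1, hB2⟩ := h4 p p'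
  set d := ‖p - p'‖
  have hd : 0 ≤ d := norm_nonneg _
  have key : ∀ j ∈ range N, |σ j * (φ j (G p) - φ j (G p'))|
      ≤ (if j ∈ B then C * d else 0) + ε * d := by
    intro j _
    rw [abs_mul]
    have : |σ j| * |φ j (G p) - φ j (G p')| ≤ |φ j (G p) - φ j (G p')| := by
      nlinarith [hσ j, abs_nonneg (φ j (G p) - φ j (G p'))]
    split_ifs with hj
    · have := hB1 j hj
      have : 0 ≤ ε * d := by positivity
      linarith
    · have := hB2 j hj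
      linarith
  refine (abs_sum_le_sum_abs _ _).trans ((sum_le_sum key).trans ?_)
  rw [sum_add_distrib, sum_const, card_range, nsmul_eq_mul, ← sum_filter, sum_const, nsmul_eq_mul]
  have h5 : ((range N).filter (· ∈ B)).card ≤ 2 :=
    (card_le_card fun j hj => (mem_filter.1 hj).2).trans hB
  have h6 : (((range N).filter (· ∈ B)).card : ℝ) ≤ 2 := by exact_mod_cast h5
  have : 0 ≤ C * d := by positivity
  nlinarith

theorem injective_of_lt {ι : ℕ → ℕ} (h : ∀ m n, m < n → ι m < ι n) : Function.Injective ι :=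
  StrictMono.injective fun m n hmn => h m n hmn

theorem comb_of_small {G : M → Q} {y : ℕ → Q} {c K : ℝ} (hc : 0 < c)
    (h : ∀ ε > (0 : ℝ), ∃ᶠ i in atTop, ∃ φ : Q →L[ℝ] ℝ, c ≤ φ (y i) ∧ ‖φ‖ ≤ K ∧
      ∀ p p' : M, |φ (G p) - φ (G p')| ≤ ε * ‖p - p'‖) : Comb G y := by
  refine comb_of_seq (K := K) hc le_rfl fun ε hε => ?_
  obtain ⟨ι, hι, h2⟩ := extraction_of_frequently_atTop (h ε hε)
  choose φ h3 h4 h5 using h2
  exact ⟨ι, φ, hι.injective, h3, h4, fun p p' => ⟨∅, by simp, by simp, fun j _ => h5 j p p'⟩⟩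

theorem comb_of_disjoint {G : M → Q} {y : ℕ → Q} {c K C : ℝ} (hc : 0 < c) (hC : 0 ≤ C)
    {X : Type} (F : Filter X) [F.NeBot] (ι : X → ℕ) (φ : X → Q →L[ℝ] ℝ)
    (hι : Tendsto ι F atTop)
    (hgood : ∀ᶠ x in F, c ≤ φ x (y (ι x)) ∧ ‖φ x‖ ≤ K ∧
      ∀ p p' : M, |φ x (G p) - φ x (G p')| ≤ C * ‖p - p'‖)
    (hdisj : ∀ᶠ x in F, ∀ᶠ x' in F, ∀ p, φ x (G p) = 0 ∨ φ x' (G p) = 0) : Comb G y := by
  refine comb_of_seq (K := K) hc hC fun ε hε => ?_
  obtain ⟨f, hf1, hf2⟩ := exists_seq_filter F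
    (R := fun x x' => ι x < ι x' ∧ ∀ p, φ x (G p) = 0 ∨ φ x' (G p) = 0) hgood
    (hdisj.mono fun x hx => (hι.eventually (eventually_gt_atTop (ι x))).and hx)
  have key : ∀ p, ∃ j₀, ∀ j, j ≠ j₀ → φ (f j) (G p) = 0 := by
    intro p
    by_cases h : ∃ j, φ (f j) (G p) ≠ 0
    · obtain ⟨j₀, hj₀⟩ := h
      refine ⟨j₀, fun j hj => ?_⟩
      rcases lt_or_gt_of_ne hj with h1 | h1
      · exact ((hf2 _ _ h1).2 p).resolve_right hj₀
      · exact ((hf2 _ _ h1).2 p).resolve_left hj₀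
    · push Not at h
      exact ⟨0, fun j _ => h j⟩
  refine ⟨ι ∘ f, φ ∘ f, injective_of_lt fun m n h => (hf2 m n h).1, fun j => (hf1 j).1,
    fun j => (hf1 j).2.1, fun p p' => ?_⟩
  obtain ⟨a, ha⟩ := key p
  obtain ⟨b, hb⟩ := key p'
  refine ⟨{a, b}, card_le_two, fun j _ => (hf1 j).2.2 p p', fun j hj => ?_⟩
  simp only [mem_insert, mem_singleton, not_or] at hj
  simp only [Function.comp, ha j hj.1, hb j hj.2, sub_zero, abs_zero]
  positivity

theorem comb_of_nested {G : M → Q} {y : ℕ → Q} {c K C : ℝ} (hc : 0 < c) (hC : 0 ≤ C)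
    {X : Type} (F : Filter X) [F.NeBot] (ι : X → ℕ) (φ : X → Q →L[ℝ] ℝ) (h : X → M → ℝ)
    (core half : X → Set M) (δ : X → ℝ)
    (hι : Tendsto ι F atTop)
    (hgood : ∀ᶠ x in F, c ≤ φ x (y (ι x)) ∧ ‖φ x‖ ≤ K ∧
      (∀ p p' : M, φ x (G p) - φ x (G p') = h x p - h x p') ∧
      (∀ p p' : M, |h x p - h x p'| ≤ C * ‖p - p'‖) ∧ half x ⊆ core x ∧
      ∀ p ∉ core x, ∀ p' ∈ half x, δ x ≤ ‖p - p'‖)
    (hflat : ∀ ε > (0 : ℝ), ∀ᶠ x in F, ∀ p ∈ core x, ∀ p' ∈ core x,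
      |h x p - h x p'| ≤ ε * ‖p - p'‖)
    (hnest : ∀ ε > (0 : ℝ), ∀ᶠ x in F, ∀ᶠ x' in F,
      ∀ p, (h x' p ≠ 0 → p ∈ half x) ∧ |h x' p| ≤ ε * δ x) : Comb G y := by
  refine comb_of_seq (K := K) hc hC fun ε hε => ?_
  obtain ⟨f, hf1, hf2⟩ := exists_seq_filter F
    (R := fun x x' => ι x < ι x' ∧ ∀ p, (h x' p ≠ 0 → p ∈ half x) ∧ |h x' p| ≤ ε * δ x)
    (hgood.and (hflat ε hε))
    ((hnest ε hε).mono fun x hx => (hι.eventually (eventually_gt_atTop (ι x))).and hx)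
  refine ⟨ι ∘ f, φ ∘ f, injective_of_lt fun m n h => (hf2 m n h).1, fun j => (hf1 j).1.1,
    fun j => (hf1 j).1.2.1, fun p p' => ?_⟩
  simp only [Function.comp, fun j => (hf1 j).1.2.2.1]
  have aux : ∀ (i j : ℕ), i < j → ∀ q q' : M, q ∉ core (f i) →
      |h (f j) q - h (f j) q'| ≤ ε * ‖q - q'‖ := by
    intro i j hij q q' hq
    have h1 : h (f j) q = 0 := by
      by_contra h0
      exact hq ((hf1 i).1.2.2.2.2.1 (((hf2 i j hij).2 q).1 h0))
    rw [h1, zero_sub, abs_neg]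
    by_cases h2 : h (f j) q' = 0
    · rw [h2, abs_zero]; positivity
    · have h3 := (hf1 i).1.2.2.2.2.2 q hq q' (((hf2 i j hij).2 q').1 h2)
      exact ((hf2 i j hij).2 q').2.trans (by gcongr)
  by_cases hex : ∃ i, p ∉ core (f i) ∨ p' ∉ core (f i)
  · classical
    refine ⟨{Nat.find hex}, by simp, fun j _ => (hf1 j).1.2.2.2.1 p p', fun j hj => ?_⟩
    rw [mem_singleton] at hj
    rcases lt_or_gt_of_ne hj with h1 | h1
    · have := Nat.find_min hex h1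
      push Not at this
      exact (hf1 j).2 p this.1 p' this.2
    · rcases Nat.find_spec hex with h2 | h2
      · exact aux _ j h1 p p' h2
      · rw [abs_sub_comm, norm_sub_rev]; exact aux _ j h1 p' p h2
  · push Not at hex
    exact ⟨∅, by simp, by simp, fun j _ => (hf1 j).2 p (hex j).1 p' (hex j).2⟩

end Crest.Agent.R091
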