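import Crest.Agent.R091.Signs

set_option autoImplicit false

/-! An interpolation space for a Lipschitz map. -/

namespace Crest.Agent.R091

open scoped ENNReal Topology
open Filter Finset TopologicalSpace

noncomputable section

variable {M Q : Type} [NormedAddCommGroup M] [NormedAddCommGroup Q] [NormedSpace ℝ Q]

/-- closed linear span of the range -/
def cspan {X : Type} (G : X → Q) : Submodule ℝ Q := (Submodule.span ℝ (Set.range G)).topologicalClosure

theorem cspan_le {X : Type} {G : X → Q} {W : Submodule ℝ Q} (hW : IsClosed (W : Set Q))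
    (h : ∀ p, G p ∈ W) : cspan G ≤ W :=
  Submodule.topologicalClosure_minimal _ (Submodule.span_le.2 (by rintro _ ⟨p, rfl⟩; exact h p)) hW

theorem mem_cspan {X : Type} (G : X → Q) (p : X) : G p ∈ cspan G :=
  Submodule.le_topologicalClosure _ (Submodule.subset_span ⟨p, rfl⟩)

theorem isClosed_cspan {X : Type} (G : X → Q) : IsClosed (cspan G : Set Q) :=
  Submodule.isClosed_topologicalClosure _

/-- The sequence `y` is normed by functionals whose signed sums are almost flat along `G`. -/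
def Comb (G : M → Q) (y : ℕ → Q) : Prop :=
  ∃ c K C : ℝ, 0 < c ∧ ∀ ε > (0 : ℝ), ∃ (ι : ℕ → ℕ) (φ : ℕ → Q →L[ℝ] ℝ), Function.Injective ι ∧
    (∀ j, c ≤ φ j (y (ι j))) ∧ (∀ j, ‖φ j‖ ≤ K) ∧
    ∀ (N : ℕ) (σ : ℕ → ℝ), (∀ j, |σ j| ≤ 1) → ∀ p p' : M,
      |∑ j ∈ range N, σ j * (φ j (G p) - φ j (G p'))| ≤ (C + ε * N) * ‖p - p'‖

/-- test functionals of level `k` -/
def Tst (G : M → Q) (k : ℕ) : Set (Q →L[ℝ] ℝ) :=
  {φ | ‖φ‖ ≤ 2 ^ k ∧ ∀ p p', |φ (G p) - φ (G p')| ≤ (1 / 2) ^ (k + 1) * ‖p - p'‖}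

/-- bounded functions on the dual -/
abbrev Linf (Q : Type) [NormedAddCommGroup Q] [NormedSpace ℝ Q] : Type :=
  lp (fun _ : (Q →L[ℝ] ℝ) => ℝ) ∞

theorem tst_bound (G : M → Q) (k : ℕ) (y : Q) (φ : Q →L[ℝ] ℝ) :
    ‖(Tst G k).indicator (fun ψ => ψ y) φ‖ ≤ 2 ^ k * ‖y‖ := by
  by_cases h : φ ∈ Tst G k
  · rw [Set.indicator_of_mem h]
    exact (φ.le_opNorm y).trans (by gcongr; exact h.1)
  · rw [Set.indicator_of_notMem h, norm_zero]; positivity

/-- evaluation on the test functionals -/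
def jk (G : M → Q) (k : ℕ) : Q →L[ℝ] Linf Q :=
  LinearMap.mkContinuous
    { toFun := fun y => ⟨fun φ => (Tst G k).indicator (fun ψ => ψ y) φ,
        memℓp_infty ⟨2 ^ k * ‖y‖, by rintro _ ⟨φ, rfl⟩; exact tst_bound G k y φ⟩⟩
      map_add' := fun y z => by
        ext φ
        by_cases h : φ ∈ Tst G k <;> simp [h]
      map_smul' := fun r y => by
        ext φ
        by_cases h : φ ∈ Tst G k <;> simp [h] } (2 ^ k)
    (fun y => lp.norm_le_of_forall_le (by positivity) fun φ => tst_bound G k y φ)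

theorem jk_apply (G : M → Q) (k : ℕ) (y : Q) (φ : Q →L[ℝ] ℝ) :
    jk G k y φ = (Tst G k).indicator (fun ψ => ψ y) φ := rfl

theorem norm_jk_sub (G : M → Q) (k : ℕ) (p p' : M) :
    ‖jk G k (G p) - jk G k (G p')‖ ≤ (1 / 2) ^ (k + 1) * ‖p - p'‖ := by
  refine lp.norm_le_of_forall_le (by positivity) fun φ => ?_
  simp only [lp.coeFn_sub, Pi.sub_apply, jk_apply]
  by_cases h : φ ∈ Tst G k
  · simp only [Set.indicator_of_mem h]
    exact h.2 p p'
  · simp only [Set.indicator_of_notMem h, sub_zero, norm_zero]; positivity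

theorem hasSum_half (d : ℝ) : HasSum (fun k : ℕ => (1 / 2 : ℝ) ^ (k + 1) * d) d := by
  have := (hasSum_geometric_two.mul_right (1 / 2 * d))
  have e : 2 * (1 / 2 * d) = d := by ring
  rw [e] at this
  exact this.congr_fun fun k => by ring

/-- ambient space -/
abbrev Amb (Q : Type) [NormedAddCommGroup Q] [NormedSpace ℝ Q] : Type :=
  Q × lp (fun _ : ℕ => Linf Q) 1

/-- the lifted map -/
def Del (G : M → Q) (hG0 : G 0 = 0) (p : M) : Amb Q :=
  (G p, ⟨fun k => jk G k (G p), memℓp_gen (by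
    have : ∀ k, ‖jk G k (G p)‖ ≤ (1 / 2) ^ (k + 1) * ‖p‖ := fun k => by
      simpa [hG0] using norm_jk_sub G k p 0
    simpa using Summable.of_nonneg_of_le (fun _ => norm_nonneg _) this (hasSum_half _).summable)⟩)

theorem norm_Del_sub {G : M → Q} (hG0 : G 0 = 0) {L : ℝ} (hL1 : 1 ≤ L)
    (hL : ∀ p p', ‖G p - G p'‖ ≤ L * ‖p - p'‖) (p p' : M) :
    ‖Del G hG0 p - Del G hG0 p'‖ ≤ L * ‖p - p'‖ := by
  rw [Prod.norm_def]
  refine max_le (hL p p') ?_
  have h1 := lp1_hasSum (Del G hG0 p - Del G hG0 p').2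
  have h2 : ‖(Del G hG0 p - Del G hG0 p').2‖ ≤ ‖p - p'‖ :=
    hasSum_le (fun k => norm_jk_sub G k p p') h1 (hasSum_half _)
  nlinarith [norm_nonneg (p - p')]

theorem exists_interp [SeparableSpace M] [CompleteSpace Q] (G : M → Q) (hG0 : G 0 = 0) {L : ℝ}
    (hL1 : 1 ≤ L) (hL : ∀ p p', ‖G p - G p'‖ ≤ L * ‖p - p'‖)
    (hcomb : ∀ (y : ℕ → Q) (C c : ℝ), (∀ i, y i ∈ cspan G) → BSS y C → 0 < c →
      (∀ i, c ≤ ‖y i‖) → Comb G y) :
    ∃ (Y : Type) (_ : NormedAddCommGroup Y) (_ : NormedSpace ℝ Y), CompleteSpace Y ∧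
      SeparableSpace Y ∧ ∃ (j : Y →L[ℝ] Q) (Gt : M → Y), (∀ y, ‖j y‖ ≤ ‖y‖) ∧
        (∀ p, j (Gt p) = G p) ∧ (∀ p p', ‖Gt p - Gt p'‖ ≤ L * ‖p - p'‖) ∧
        ∀ (y : ℕ → Y) (C c : ℝ), BSS y C → 0 < c → (∀ i, c ≤ ‖y i‖) → False := by
  have hlip := norm_Del_sub hG0 hL1 hL
  have hcont : Continuous (Del G hG0) := by
    have : LipschitzWith (Real.toNNReal L) (Del G hG0) :=
      LipschitzWith.of_dist_le' fun p p' => by simpa [dist_eq_norm] using hlip p p'
    exact this.continuous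
  have hcl := isClosed_cspan (Del G hG0)
  refine ⟨cspan (Del G hG0), inferInstance, inferInstance, hcl.completeSpace_coe, ?_,
    (ContinuousLinearMap.fst ℝ _ _).comp (cspan (Del G hG0)).subtypeL,
    fun p => ⟨Del G hG0 p, mem_cspan _ p⟩, fun y => norm_fst_le y.1, fun p => rfl,
    fun p p' => hlip p p', ?_⟩
  · exact ((isSeparable_range hcont).span (R := ℝ)).closure.separableSpace
  intro y C c hB hc hy
  have hrel : ∀ (ω : cspan (Del G hG0)) (k : ℕ), ω.1.2 k = jk G k ω.1.1 := by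
    intro ω k
    let T : Amb Q →L[ℝ] Linf Q :=
      (lp.evalCLM ℝ (fun _ : ℕ => Linf Q) 1 k).comp (ContinuousLinearMap.snd ℝ _ _)
        - (jk G k).comp (ContinuousLinearMap.fst ℝ _ _)
    have : cspan (Del G hG0) ≤ LinearMap.ker (T : Amb Q →ₗ[ℝ] Linf Q) :=
      cspan_le T.isClosed_ker fun p => by
        change jk G k (G p) - jk G k (G p) = 0
        exact sub_self _
    have h2 : T ω.1 = 0 := this ω.2
    exact sub_eq_zero.1 h2
  have hmem : ∀ ω : cspan (Del G hG0), ω.1.1 ∈ cspan G := by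
    intro ω
    have : cspan (Del G hG0) ≤ (cspan G).comap
        (ContinuousLinearMap.fst ℝ Q (lp (fun _ : ℕ => Linf Q) 1) : _ →ₗ[ℝ] _) :=
      cspan_le ((isClosed_cspan G).preimage continuous_fst) fun p => mem_cspan G p
    exact this ω.2
  let P1 : cspan (Del G hG0) →L[ℝ] Q :=
    (ContinuousLinearMap.fst ℝ _ _).comp (cspan (Del G hG0)).subtypeL
  let P2 : cspan (Del G hG0) →L[ℝ] lp (fun _ : ℕ => Linf Q) 1 :=
    (ContinuousLinearMap.snd ℝ _ _).comp (cspan (Del G hG0)).subtypeL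
  by_cases h0 : Tendsto (fun i => (y i).1.1) atTop (𝓝 0)
  · refine not_BSS_lp1 hc ?_ (fun k => ?_) (hB.map P2)
    · have h1 := h0.norm.eventually (gt_mem_nhds (by simpa using hc))
      filter_upwards [h1] with i hi
      have h2 := hy i
      have h3 : ‖y i‖ = max ‖(y i).1.1‖ ‖(y i).1.2‖ := rfl
      rw [h3, le_max_iff] at h2
      exact h2.resolve_left (not_le.2 hi)
    · have : (fun i => (P2 (y i)) k) = fun i => jk G k (y i).1.1 := funext fun i => hrel (y i) k
      rw [this]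
      simpa [Function.comp_def] using ((jk G k).continuous.tendsto 0).comp h0
  · rw [Metric.tendsto_nhds] at h0
    push Not at h0
    obtain ⟨c', hc', hfr⟩ := h0
    obtain ⟨f, hf, hf2⟩ := extraction_of_frequently_atTop hfr
    obtain ⟨c₁, K, C₁, hc₁, hcomb'⟩ := hcomb (fun i => P1 (y (f i))) (‖P1‖ * C) c'
      (fun i => hmem _) ((hB.comp hf.injective).map P1) hc'
      (fun i => by have := hf2 i; rw [dist_zero_right] at this; exact this)
    have hC := hB.nonneg
    set t : ℝ := (C + 1) / c₁ with ht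
    have htpos : 0 < t := by positivity
    obtain ⟨k, hk⟩ := pow_unbounded_of_one_lt (t * K) (one_lt_two (α := ℝ))
    set η : ℝ := (1 / 2) ^ (k + 1) with hη
    have hηpos : 0 < η := by positivity
    obtain ⟨ι, φ, hι, hφ1, hφ2, hφ3⟩ := hcomb' (η / (2 * t)) (by positivity)
    obtain ⟨N, hN⟩ := exists_nat_gt (max 0 (2 * t * C₁ / η))
    have hN0 : (0 : ℝ) < N := (le_max_left _ _).trans_lt hN
    have hN1 : 2 * t * C₁ < N * η := by
      have := (le_max_right _ _).trans_lt hN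
      rwa [div_lt_iff₀ hηpos] at this
    obtain ⟨σ, hσ, hsum⟩ := exists_signs (fun j l => φ j (P1 (y (f (ι l))))) N
    let Φ : Q →L[ℝ] ℝ := (t / N) • ∑ j ∈ range N, σ j • φ j
    have hΦ : Φ ∈ Tst G k := by
      refine ⟨?_, fun p p' => ?_⟩
      · have h1 : ‖∑ j ∈ range N, σ j • φ j‖ ≤ N * K := by
          refine (norm_sum_le _ _).trans ?_
          have : ∀ j ∈ range N, ‖σ j • φ j‖ ≤ K := fun j _ => by
            rw [norm_smul, Real.norm_eq_abs]
            nlinarith [hσ j, hφ2 j, norm_nonneg (φ j), abs_nonneg (σ j)]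
          simpa using sum_le_card_nsmul _ _ _ this
        calc ‖Φ‖ = t / N * ‖∑ j ∈ range N, σ j • φ j‖ := by
              rw [norm_smul, Real.norm_of_nonneg (by positivity)]
          _ ≤ t / N * (N * K) := by gcongr
          _ = t * K := by field_simp
          _ ≤ 2 ^ k := hk.le
      · have e : Φ (G p) - Φ (G p') = t / N * ∑ j ∈ range N, σ j * (φ j (G p) - φ j (G p')) := by
          simp only [Φ, smul_apply, _root_.sum_apply, smul_eq_mul, mul_sub,
            sum_sub_distrib]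
        rw [e, abs_mul, abs_of_nonneg (by positivity)]
        have h1 := hφ3 N σ hσ p p'
        calc t / N * |∑ j ∈ range N, σ j * (φ j (G p) - φ j (G p'))|
            ≤ t / N * ((C₁ + η / (2 * t) * N) * ‖p - p'‖) := by gcongr
          _ = (t * C₁ / N + η / 2) * ‖p - p'‖ := by field_simp
          _ ≤ η * ‖p - p'‖ := by
              gcongr
              have : t * C₁ / N ≤ η / 2 := by
                rw [div_le_iff₀ hN0]; linarith
              linarith
    set Y0 : cspan (Del G hG0) := ∑ l ∈ range N, σ l • y (f (ι l)) with hY0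
    have hY : ‖Y0‖ ≤ C := (hB.comp (hf.injective.comp hι)) (range N) σ hσ
    have h1 : Φ (P1 Y0) ≤ C := by
      have e : Φ (P1 Y0) = Y0.1.2 k Φ := by
        rw [hrel, jk_apply, Set.indicator_of_mem hΦ]; rfl
      rw [e]
      calc Y0.1.2 k Φ ≤ ‖Y0.1.2 k Φ‖ := Real.le_norm_self _
        _ ≤ ‖Y0.1.2 k‖ := lp.norm_apply_le_norm ENNReal.top_ne_zero _ _
        _ ≤ ‖Y0.1.2‖ := lp.norm_apply_le_norm one_ne_zero _ _
        _ ≤ ‖Y0‖ := norm_snd_le Y0.1
        _ ≤ C := hY
    have h2 : Φ (P1 Y0)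
        = t / N * ∑ j ∈ range N, ∑ l ∈ range N, σ j * σ l * φ j (P1 (y (f (ι l)))) := by
      simp only [Φ, hY0, map_sum, map_smul, smul_apply, _root_.sum_apply,
        smul_eq_mul, mul_sum]
      rw [sum_comm]
      refine sum_congr rfl fun j _ => sum_congr rfl fun l _ => by ring
    have h3 : N * c₁ ≤ ∑ j ∈ range N, φ j (P1 (y (f (ι j)))) := by
      simpa using card_nsmul_le_sum (range N) _ c₁ fun j _ => hφ1 j
    have h4 : t / N * (N * c₁) ≤ Φ (P1 Y0) := by
      rw [h2]; gcongr; exact h3.trans hsum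
    have h5 : t / N * (N * c₁) = C + 1 := by rw [ht]; field_simp
    linarith

end

end Crest.Agent.R091
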