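import Crest.Agent.R091.Loc
import Crest.Agent.R091.Comb

set_option autoImplicit false

/-! Flatteners and nested sequences. -/

namespace Crest.Agent.R091

open Finset Filter
open scoped Topology

noncomputable section

/-- outer radius -/
def r1 (s : ℕ) : ℝ := 1 / ((s : ℝ) + 1) ^ 2

/-- inner radius -/
def r2 (s : ℕ) : ℝ := r1 s * Real.exp (-((s : ℝ) + 1) ^ 2)

theorem r1_pos (s : ℕ) : 0 < r1 s := by unfold r1; positivity

theorem r2_pos (s : ℕ) : 0 < r2 s := mul_pos (r1_pos s) (Real.exp_pos _)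

theorem r2_le_r1 (s : ℕ) : r2 s ≤ r1 s :=
  mul_le_of_le_one_right (r1_pos s).le (Real.exp_le_one_iff.2 (neg_nonpos.2 (by positivity)))

theorem mul_r1_le (s : ℕ) : (s : ℝ) * r1 s ≤ 1 / ((s : ℝ) + 1) := by
  unfold r1
  rw [mul_one_div, div_le_div_iff₀ (by positivity) (by positivity)]
  nlinarith [Nat.cast_nonneg (α := ℝ) s]

theorem r1_le (s : ℕ) : r1 s ≤ 1 / ((s : ℝ) + 1) := by
  unfold r1
  rw [div_le_div_iff₀ (by positivity) (by positivity)]
  nlinarith [Nat.cast_nonneg (α := ℝ) s]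

theorem eventually_inv_le {ε : ℝ} (hε : 0 < ε) : ∀ᶠ s : ℕ in atTop, 1 / ((s : ℝ) + 1) ≤ ε :=
  tendsto_one_div_add_atTop_nhds_zero_nat.eventually (ge_mem_nhds hε)

/-- clamp -/
def cl (s : ℕ) (t : ℝ) : ℝ := max (r2 s) (min t (r1 s))

/-- logarithmic cutoff -/
def beta (s : ℕ) (t : ℝ) : ℝ := (Real.log (r1 s) - Real.log (cl s t)) / ((s : ℝ) + 1) ^ 2

theorem r2_le_cl (s : ℕ) (t : ℝ) : r2 s ≤ cl s t := le_max_left _ _

theorem cl_pos (s : ℕ) (t : ℝ) : 0 < cl s t := (r2_pos s).trans_le (r2_le_cl s t)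

theorem cl_le (s : ℕ) (t : ℝ) : cl s t ≤ r1 s := max_le (r2_le_r1 s) (min_le_right _ _)

theorem log_r2 (s : ℕ) : Real.log (r2 s) = Real.log (r1 s) - ((s : ℝ) + 1) ^ 2 := by
  rw [r2, Real.log_mul (r1_pos s).ne' (Real.exp_pos _).ne', Real.log_exp]; ring

theorem beta_nonneg (s : ℕ) (t : ℝ) : 0 ≤ beta s t :=
  div_nonneg (sub_nonneg.2 (Real.log_le_log (cl_pos s t) (cl_le s t))) (by positivity)

theorem beta_le_one (s : ℕ) (t : ℝ) : beta s t ≤ 1 := by
  rw [beta, div_le_one (by positivity)]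
  have := Real.log_le_log (r2_pos s) (r2_le_cl s t)
  rw [log_r2] at this
  linarith

theorem beta_eq_one {s : ℕ} {t : ℝ} (h : t ≤ r2 s) : beta s t = 1 := by
  have : cl s t = r2 s := max_eq_left ((min_le_left _ _).trans h)
  rw [beta, this, log_r2]
  field_simp
  ring

theorem beta_eq_zero {s : ℕ} {t : ℝ} (h : r1 s ≤ t) : beta s t = 0 := by
  have : cl s t = r1 s := by rw [cl, min_eq_right h, max_eq_right (r2_le_r1 s)]
  rw [beta, this, sub_self, zero_div]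

theorem beta_sub_mul (s : ℕ) {t t' : ℝ} (h : t' ≤ t) :
    |beta s t - beta s t'| * cl s t' ≤ (t - t') / ((s : ℝ) + 1) ^ 2 := by
  have h1 : cl s t' ≤ cl s t := max_le_max le_rfl (min_le_min h le_rfl)
  have h2 : cl s t - cl s t' ≤ t - t' := by
    refine (le_abs_self _).trans ((abs_max_sub_max_le_max _ _ _ _).trans (max_le ?_ ?_))
    · simpa using h
    · refine (abs_min_sub_min_le_max _ _ _ _).trans (max_le ?_ ?_)
      · exact (abs_of_nonneg (sub_nonneg.2 h)).le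
      · simpa using h
  have h0 := cl_pos s t'
  have e : beta s t - beta s t' = -(Real.log (cl s t / cl s t') / ((s : ℝ) + 1) ^ 2) := by
    rw [Real.log_div (cl_pos s t).ne' h0.ne', beta, beta]; ring
  have h3 : 0 ≤ Real.log (cl s t / cl s t') := Real.log_nonneg ((one_le_div h0).2 h1)
  have h4 := Real.log_le_sub_one_of_pos (div_pos (cl_pos s t) h0)
  have h5 : Real.log (cl s t / cl s t') * cl s t' ≤ t - t' := by
    calc _ ≤ (cl s t / cl s t' - 1) * cl s t' := by gcongr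
      _ = cl s t - cl s t' := by field_simp
      _ ≤ _ := h2
  rw [e, abs_neg, abs_of_nonneg (by positivity), div_mul_eq_mul_div]
  gcongr

theorem beta_sub_mul' (s : ℕ) {t t' : ℝ} (h : t' ≤ t) :
    |beta s t - beta s t'| * t' ≤ (t - t') / ((s : ℝ) + 1) ^ 2 := by
  rcases le_total t' (r1 s) with h1 | h1
  · refine le_trans ?_ (beta_sub_mul s h)
    gcongr
    exact le_max_of_le_right (le_min le_rfl h1)
  · rw [beta_eq_zero h1, beta_eq_zero (h1.trans h), sub_self, abs_zero, zero_mul]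
    exact div_nonneg (sub_nonneg.2 h) (by positivity)

theorem abs_beta_sub_le (s : ℕ) (t t' : ℝ) : |beta s t - beta s t'| ≤ 1 / r2 s * |t - t'| := by
  have aux : ∀ t t' : ℝ, t' ≤ t → |beta s t - beta s t'| ≤ 1 / r2 s * (t - t') := by
    intro t t' h
    have h1 := beta_sub_mul s h
    have h2 : (t - t') / ((s : ℝ) + 1) ^ 2 ≤ t - t' :=
      div_le_self (sub_nonneg.2 h) (by nlinarith [Nat.cast_nonneg (α := ℝ) s])
    have h3 : |beta s t - beta s t'| * r2 s ≤ |beta s t - beta s t'| * cl s t' := by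
      gcongr; exact r2_le_cl s t'
    rw [one_div, inv_mul_eq_div, le_div_iff₀ (r2_pos s)]
    linarith
  rcases le_total t' t with h | h
  · rw [abs_of_nonneg (sub_nonneg.2 h)]; exact aux t t' h
  · rw [abs_sub_comm, abs_sub_comm t, abs_of_nonneg (sub_nonneg.2 h)]; exact aux t' t h

theorem abs_mul_sub_mul_le (A A' B B' : ℝ) :
    |A * B - A' * B'| ≤ max |A| |A'| * |B - B'| + min |B| |B'| * |A - A'| := by
  rcases le_total |B| |B'| with h | h
  · have e : A * B - A' * B' = A' * (B - B') + B * (A - A') := by ring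
    rw [min_eq_left h, e]
    refine (abs_add_le _ _).trans ?_
    rw [abs_mul, abs_mul]
    gcongr
    exact le_max_right _ _
  · have e : A * B - A' * B' = A * (B - B') + B' * (A - A') := by ring
    rw [min_eq_right h, e]
    refine (abs_add_le _ _).trans ?_
    rw [abs_mul, abs_mul]
    gcongr
    exact le_max_left _ _

variable {M Q : Type} [NormedAddCommGroup M] [NormedAddCommGroup Q] [NormedSpace ℝ Q]

/-- a countable family of Lipschitz functions to be flattened -/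
structure Fam (Λ : Loc M) (J : Type) where
  F : J → M → ℝ
  enc : J → ℕ
  fin : ∀ s, {a | enc a ≤ s}.Finite
  CF : ℝ
  CF_nonneg : 0 ≤ CF
  lip : ∀ a p q, |F a p - F a q| ≤ CF * ‖p - q‖
  glo : ∀ a, Λ.Glo (F a)

/-- nets for the flatteners -/
def Loc.netf (Λ : Loc M) (s : ℕ) : Finset M :=
  (Λ.net (r2 s / 8) (by linarith [r2_pos s])).choose

theorem Loc.netf_spec (Λ : Loc M) (s : ℕ) (p : M) : ∃ q ∈ Λ.netf s, Λ.D p q ≤ r2 s / 8 :=
  (Λ.net (r2 s / 8) (by linarith [r2_pos s])).choose_spec p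

namespace Fam

variable {Λ : Loc M} {J : Type} (𝔉 : Fam Λ J)

/-- admissible parameters -/
def Valid (x : ℕ × J × M) : Prop :=
  𝔉.enc x.2.1 ≤ x.1 ∧ (∀ p p', |𝔉.F x.2.1 p - 𝔉.F x.2.1 p'| ≤ x.1 * Λ.D p p') ∧ x.2.2 ∈ Λ.netf x.1

/-- the flattener -/
def flat (x : ℕ × J × M) (p : M) : ℝ :=
  beta x.1 (Λ.D p x.2.2) * (𝔉.F x.2.1 p - 𝔉.F x.2.1 x.2.2)

open Classical in
/-- the atoms of the second kind -/
def atom (x : ℕ × J × M) (p : M) : ℝ := if 𝔉.Valid x then 𝔉.flat x p else 0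

variable {𝔉}

theorem Valid.err {x : ℕ × J × M} (h : 𝔉.Valid x) (p p' : M) :
    min |𝔉.F x.2.1 p - 𝔉.F x.2.1 x.2.2| |𝔉.F x.2.1 p' - 𝔉.F x.2.1 x.2.2|
      * |beta x.1 (Λ.D p x.2.2) - beta x.1 (Λ.D p' x.2.2)| ≤ 1 / ((x.1 : ℝ) + 1) * ‖p - p'‖ := by
  obtain ⟨s, a, q⟩ := x
  have aux : ∀ p p' : M, Λ.D p' q ≤ Λ.D p q →
      |𝔉.F a p' - 𝔉.F a q| * |beta s (Λ.D p q) - beta s (Λ.D p' q)|
        ≤ 1 / ((s : ℝ) + 1) * ‖p - p'‖ := by
    intro p p' hle
    have h1 := beta_sub_mul' s hle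
    have h2 : |𝔉.F a p' - 𝔉.F a q| ≤ s * Λ.D p' q := h.2.1 p' q
    have h3 : Λ.D p q - Λ.D p' q ≤ ‖p - p'‖ :=
      (le_abs_self _).trans ((Λ.abs_sub_le p p' q).trans (Λ.le p p'))
    have hs : (0 : ℝ) ≤ s := Nat.cast_nonneg s
    calc _ ≤ (s * Λ.D p' q) * |beta s (Λ.D p q) - beta s (Λ.D p' q)| := by gcongr
      _ = s * (|beta s (Λ.D p q) - beta s (Λ.D p' q)| * Λ.D p' q) := by ring
      _ ≤ s * (‖p - p'‖ / ((s : ℝ) + 1) ^ 2) := by
          gcongr; exact h1.trans (by gcongr)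
      _ = (s * r1 s) * ‖p - p'‖ := by unfold r1; ring
      _ ≤ _ := by gcongr; exact mul_r1_le s
  dsimp only
  rcases le_total (Λ.D p' q) (Λ.D p q) with hle | hle
  · exact le_trans (by gcongr; exact min_le_right _ _) (aux p p' hle)
  · rw [abs_sub_comm (beta _ _), norm_sub_rev]
    exact le_trans (by gcongr; exact min_le_left _ _) (aux p' p hle)

theorem Valid.lip {x : ℕ × J × M} (h : 𝔉.Valid x) (p p' : M) :
    |𝔉.flat x p - 𝔉.flat x p'| ≤ (𝔉.CF + 1) * ‖p - p'‖ := by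
  refine (abs_mul_sub_mul_le _ _ _ _).trans ?_
  have h1 := h.err p p'
  have h2 : 1 / ((x.1 : ℝ) + 1) * ‖p - p'‖ ≤ 1 * ‖p - p'‖ := by
    gcongr
    rw [div_le_one (by positivity)]; linarith [Nat.cast_nonneg (α := ℝ) x.1]
  have h3 : max |beta x.1 (Λ.D p x.2.2)| |beta x.1 (Λ.D p' x.2.2)| ≤ 1 :=
    max_le (by rw [abs_of_nonneg (beta_nonneg _ _)]; exact beta_le_one _ _)
      (by rw [abs_of_nonneg (beta_nonneg _ _)]; exact beta_le_one _ _)
  have h4 := 𝔉.lip x.2.1 p p'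
  rw [sub_sub_sub_cancel_right]
  nlinarith [abs_nonneg (𝔉.F x.2.1 p - 𝔉.F x.2.1 p')]

theorem flat_ne_zero {x : ℕ × J × M} {p : M} (h : 𝔉.flat x p ≠ 0) : Λ.D p x.2.2 ≤ r1 x.1 := by
  by_contra h1
  exact h (by rw [flat, beta_eq_zero (not_le.1 h1).le, zero_mul])

theorem Valid.abs_le {x : ℕ × J × M} (h : 𝔉.Valid x) (p : M) :
    |𝔉.flat x p| ≤ 1 / ((x.1 : ℝ) + 1) := by
  by_cases h0 : 𝔉.flat x p = 0
  · rw [h0, abs_zero]; positivity
  have h1 := flat_ne_zero h0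
  have h2 := h.2.1 p x.2.2
  rw [flat, abs_mul, abs_of_nonneg (beta_nonneg _ _)]
  calc _ ≤ 1 * (x.1 * r1 x.1) := by
        gcongr
        · exact beta_le_one _ _
        · exact h2.trans (by gcongr)
    _ ≤ _ := by rw [one_mul]; exact mul_r1_le _

theorem atom_lip (x : ℕ × J × M) (p p' : M) :
    |𝔉.atom x p - 𝔉.atom x p'| ≤ (𝔉.CF + 1) * ‖p - p'‖ := by
  unfold atom
  split_ifs with h
  · exact h.lip p p'
  · have := 𝔉.CF_nonneg
    rw [sub_self, abs_zero]; positivity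

theorem atom_abs_le (x : ℕ × J × M) (p : M) : |𝔉.atom x p| ≤ 1 / ((x.1 : ℝ) + 1) := by
  unfold atom
  split_ifs with h
  · exact h.abs_le p
  · rw [abs_zero]; positivity

theorem eventually_valid (a : J) (q : ℕ → M) (hq : ∀ s, q s ∈ Λ.netf s) :
    ∀ᶠ s in atTop, 𝔉.Valid (s, a, q s) := by
  obtain ⟨L, -, hL⟩ := 𝔉.glo a
  filter_upwards [eventually_ge_atTop (𝔉.enc a),
    tendsto_natCast_atTop_atTop.eventually (eventually_ge_atTop L)] with s h1 h2
  refine ⟨h1, fun p p' => (hL p p').trans ?_, hq s⟩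
  have := Λ.nonneg p p'
  gcongr

theorem finite_valid (s₀ : ℕ) : {x | 𝔉.Valid x ∧ x.1 ≤ s₀}.Finite := by
  refine ((Set.finite_Iic s₀).prod ((𝔉.fin s₀).prod
    ((Set.finite_Iic s₀).biUnion fun s _ => (Λ.netf s).finite_toSet))).subset ?_
  rintro ⟨s, a, q⟩ ⟨h1, h2⟩
  exact ⟨h2, h1.1.trans h2, Set.mem_biUnion h2 h1.2.2⟩

end Fam

instance curry_neBot {α β : Type} (l : Filter α) (m : Filter β) [l.NeBot] [m.NeBot] :
    (l.curry m).NeBot := by
  refine ⟨fun h => ?_⟩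
  have : ∀ᶠ _x in l.curry m, False := by rw [h]; exact eventually_bot
  rw [eventually_curry_iff] at this
  obtain ⟨_, h1⟩ := this.exists
  exact h1.exists.elim fun _ h => h

theorem Comb.of_neg {G : M → Q} {y : ℕ → Q} (h : Comb G fun i => -y i) : Comb G y := by
  obtain ⟨c, K, C, hc, h⟩ := h
  refine ⟨c, K, C, hc, fun ε hε => ?_⟩
  obtain ⟨ι, φ, h1, h2, h3, h4⟩ := h ε hε
  refine ⟨ι, fun j => -φ j, h1, fun j => by simpa using h2 j, fun j => by simpa using h3 j,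
    fun N σ hσ p p' => ?_⟩
  have := h4 N (fun j => -σ j) (fun j => by simpa using hσ j) p p'
  convert this using 3 with j
  simp only [neg_apply]; ring

/-- evaluation functionals for the atoms of the second kind -/
structure Ev {Λ : Loc M} {J : Type} (𝔉 : Fam Λ J) (G : M → Q) where
  ev : ℕ × J × M → Q →L[ℝ] ℝ
  le : ∀ x y, ‖ev x y‖ ≤ ‖y‖
  eq : ∀ x p, ev x (G p) = (𝔉.atom x p - 𝔉.atom x 0) / (𝔉.CF + 1)

variable {Λ : Loc M} {J : Type} {𝔉 : Fam Λ J} {G : M → Q}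

theorem Ev.tendsto (E : Ev 𝔉 G) (x : ℕ → J × M) {y : Q} (hy : y ∈ cspan G) :
    Tendsto (fun s => E.ev (s, x s) y) atTop (𝓝 0) := by
  refine tendsto_of_cspan (fun s => E.ev (s, x s)) (C := 1) (fun s y => by simpa using E.le _ y)
    (fun p => ?_) hy
  have hC := 𝔉.CF_nonneg
  refine squeeze_zero_norm (a := fun s : ℕ => 2 * (1 / ((s : ℝ) + 1))) (fun s => ?_) ?_
  · rw [E.eq, Real.norm_eq_abs, abs_div, abs_of_pos (by linarith : 0 < 𝔉.CF + 1)]
    refine (div_le_self (abs_nonneg _) (by linarith)).trans ((abs_sub _ _).trans ?_)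
    linarith [Fam.atom_abs_le (𝔉 := 𝔉) (s, x s) p, Fam.atom_abs_le (𝔉 := 𝔉) (s, x s) 0]
  · simpa using tendsto_one_div_add_atTop_nhds_zero_nat.const_mul (2 : ℝ)

theorem comb_of_fine (E : Ev 𝔉 G) (U : Ultrafilter ℕ) (hU : (U : Filter ℕ) ≤ atTop) {y : ℕ → Q}
    (hy : ∀ i, y i ∈ cspan G) {c K : ℝ} (hc : 0 < c) (a : ℕ → J) (φ : ℕ → Q →L[ℝ] ℝ)
    (γ : ℕ → M → ℝ) (v : ℕ → ℝ) (pt : ℕ → M)
    (h1 : ∀ᶠ i in U, c ≤ φ i (y i) ∧ ‖φ i‖ ≤ K ∧
      (∀ p p', φ i (G p) - φ i (G p')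
        = γ i p * (𝔉.F (a i) p - v i) - γ i p' * (𝔉.F (a i) p' - v i)) ∧
      (∀ p, 0 ≤ γ i p ∧ γ i p ≤ 1) ∧ Λ.Glo (γ i))
    (h2 : ∀ ε > (0 : ℝ), ∀ᶠ i in U,
      (∀ p p', min |𝔉.F (a i) p - v i| |𝔉.F (a i) p' - v i| * |γ i p - γ i p'| ≤ ε * ‖p - p'‖) ∧
      (∀ p, γ i p * (𝔉.F (a i) p - v i) ≠ 0 → Λ.D p (pt i) ≤ ε) ∧
      ∀ p, |γ i p * (𝔉.F (a i) p - v i)| ≤ ε) : Comb G y := by
  have hC := 𝔉.CF_nonneg
  have hq : ∀ s, ∃ q ∈ Λ.netf s, ∀ᶠ i in U, Λ.D (pt i) q ≤ r2 s / 8 := fun s =>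
    (Ultrafilter.eventually_exists_mem_iff (Λ.netf s).finite_toSet).1
      (Eventually.of_forall fun i => Λ.netf_spec s (pt i))
  choose q hq1 hq2 using hq
  let X : ℕ × ℕ → ℕ × J × M := fun x => (x.2, a x.1, q x.2)
  refine comb_of_nested (c := c / 2) (K := K + (𝔉.CF + 1)) (C := 2 * (𝔉.CF + 1)) (by positivity)
    (by positivity) ((U : Filter ℕ).curry atTop) Prod.fst
    (fun x => φ x.1 - (γ x.1 (q x.2) * (𝔉.CF + 1)) • E.ev (X x))
    (fun x p => γ x.1 p * (𝔉.F (a x.1) p - v x.1) - γ x.1 (q x.2) * 𝔉.flat (X x) p)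
    (fun x => {p | Λ.D p (q x.2) ≤ r2 x.2}) (fun x => {p | Λ.D p (q x.2) ≤ r2 x.2 / 2})
    (fun x => r2 x.2 / 2) ((tendsto_fst.mono_left curry_le_prod).mono_right hU) ?_
    (fun ε hε => ?_) (fun ε hε => ?_)
  · rw [eventually_curry_iff]
    filter_upwards [h1, h2 1 one_pos] with i ⟨a1, a2, a3, a4, _⟩ ⟨b1, _⟩
    have ht := (E.tendsto (fun s => (a i, q s)) (hy i)).norm
    rw [norm_zero] at ht
    filter_upwards [Fam.eventually_valid (𝔉 := 𝔉) (a i) q hq1,
      ht.eventually (ge_mem_nhds (show 0 < c / 2 / (𝔉.CF + 1) by positivity))] with s hs hs2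
    have hγ := a4 (q s)
    have hcoef : |γ i (q s) * (𝔉.CF + 1)| ≤ 𝔉.CF + 1 := by
      rw [abs_of_nonneg (mul_nonneg hγ.1 (by linarith))]; nlinarith [hγ.2]
    refine ⟨?_, ?_, fun p p' => ?_, fun p p' => ?_, fun p hp => ?_, fun p hp p' hp' => ?_⟩
    · simp only [sub_apply, smul_apply, smul_eq_mul]
      rw [le_div_iff₀ (by linarith)] at hs2
      have : |γ i (q s) * (𝔉.CF + 1) * E.ev (s, a i, q s) (y i)| ≤ c / 2 := by
        rw [abs_mul]
        refine le_trans ?_ hs2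
        rw [mul_comm]
        gcongr
        exact le_rfl
      linarith [le_abs_self (γ i (q s) * (𝔉.CF + 1) * E.ev (s, a i, q s) (y i))]
    · refine (norm_sub_le _ _).trans (add_le_add a2 ?_)
      rw [norm_smul, Real.norm_eq_abs]
      have : ‖E.ev (s, a i, q s)‖ ≤ 1 :=
        ContinuousLinearMap.opNorm_le_bound _ zero_le_one fun y => by simpa using E.le _ y
      calc _ ≤ (𝔉.CF + 1) * 1 := by gcongr
        _ = _ := mul_one _
    · simp only [sub_apply, smul_apply, smul_eq_mul, E.eq, X, Fam.atom, if_pos hs]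
      have := a3 p p'
      field_simp
      linear_combination this
    · have e1 := abs_mul_sub_mul_le (γ i p) (γ i p') (𝔉.F (a i) p - v i) (𝔉.F (a i) p' - v i)
      rw [sub_sub_sub_cancel_right] at e1
      have e2 : max |γ i p| |γ i p'| ≤ 1 :=
        max_le (by rw [abs_of_nonneg (a4 p).1]; exact (a4 p).2)
          (by rw [abs_of_nonneg (a4 p').1]; exact (a4 p').2)
      have e3 := 𝔉.lip (a i) p p'
      have e4 := b1 p p'
      have e5 : |γ i (q s) * (𝔉.flat (s, a i, q s) p - 𝔉.flat (s, a i, q s) p')|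
          ≤ 1 * ((𝔉.CF + 1) * ‖p - p'‖) := by
        rw [abs_mul, abs_of_nonneg hγ.1]
        gcongr
        exacts [hγ.2, hs.lip p p']
      have e6 : γ i p * (𝔉.F (a i) p - v i) - γ i (q s) * 𝔉.flat (s, a i, q s) p
          - (γ i p' * (𝔉.F (a i) p' - v i) - γ i (q s) * 𝔉.flat (s, a i, q s) p')
          = (γ i p * (𝔉.F (a i) p - v i) - γ i p' * (𝔉.F (a i) p' - v i))
            - γ i (q s) * (𝔉.flat (s, a i, q s) p - 𝔉.flat (s, a i, q s) p') := by ring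
      change |γ i p * (𝔉.F (a i) p - v i) - γ i (q s) * 𝔉.flat (s, a i, q s) p
          - (γ i p' * (𝔉.F (a i) p' - v i) - γ i (q s) * 𝔉.flat (s, a i, q s) p')| ≤ _
      rw [e6]
      refine (abs_sub _ _).trans ?_
      nlinarith [abs_nonneg (𝔉.F (a i) p - 𝔉.F (a i) p')]
    · have : Λ.D p (q s) ≤ r2 s / 2 := hp
      change Λ.D p (q s) ≤ r2 s
      linarith [r2_pos s]
    · have e1 : ¬ Λ.D p (q s) ≤ r2 s := hp
      have e2 : Λ.D p' (q s) ≤ r2 s / 2 := hp'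
      change r2 s / 2 ≤ _
      linarith [Λ.tri p p' (q s), Λ.le p p', not_le.1 e1]
  · rw [eventually_curry_iff]
    filter_upwards [h1, h2 (ε / 2) (by positivity)] with i ⟨_, _, _, _, L, hL0, hL⟩ ⟨b1, _⟩
    filter_upwards [eventually_inv_le (show 0 < ε / 2 / ((L + 1) * (𝔉.CF + 1)) by positivity)]
      with s hs p hp p' hp'
    have e1 : Λ.D p (q s) ≤ r2 s := hp
    have e2 : Λ.D p' (q s) ≤ r2 s := hp'
    have e3 : γ i p * (𝔉.F (a i) p - v i) - γ i (q s) * 𝔉.flat (s, a i, q s) p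
          - (γ i p' * (𝔉.F (a i) p' - v i) - γ i (q s) * 𝔉.flat (s, a i, q s) p')
          = (γ i p - γ i (q s)) * (𝔉.F (a i) p - v i)
            - (γ i p' - γ i (q s)) * (𝔉.F (a i) p' - v i) := by
      simp only [Fam.flat, beta_eq_one e1, beta_eq_one e2]; ring
    change |γ i p * (𝔉.F (a i) p - v i) - γ i (q s) * 𝔉.flat (s, a i, q s) p
          - (γ i p' * (𝔉.F (a i) p' - v i) - γ i (q s) * 𝔉.flat (s, a i, q s) p')| ≤ _
    rw [e3]
    refine (abs_mul_sub_mul_le _ _ _ _).trans ?_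
    rw [sub_sub_sub_cancel_right, sub_sub_sub_cancel_right]
    have hr : r2 s ≤ ε / 2 / ((L + 1) * (𝔉.CF + 1)) := (r2_le_r1 s).trans ((r1_le s).trans hs)
    have e4 : max |γ i p - γ i (q s)| |γ i p' - γ i (q s)| ≤ L * r2 s :=
      max_le ((hL _ _).trans (by gcongr)) ((hL _ _).trans (by gcongr))
    have e5 : max |γ i p - γ i (q s)| |γ i p' - γ i (q s)| * |𝔉.F (a i) p - 𝔉.F (a i) p'|
        ≤ (L * r2 s) * (𝔉.CF * ‖p - p'‖) := by
      have := (r2_pos s).le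
      gcongr
      exact 𝔉.lip _ _ _
    have e6 : L * r2 s * 𝔉.CF ≤ ε / 2 := by
      rw [le_div_iff₀ (by positivity)] at hr
      nlinarith [(r2_pos s).le, mul_nonneg hL0 hC]
    have e7 : (L * r2 s * 𝔉.CF) * ‖p - p'‖ ≤ ε / 2 * ‖p - p'‖ := by gcongr
    nlinarith [b1 p p']
  · refine Eventually.of_forall fun ⟨i, s⟩ => ?_
    rw [eventually_curry_iff]
    have hr := r2_pos s
    set e := min (r2 s / 8) (ε * r2 s / 4) with he
    have he0 : 0 < e := lt_min (by positivity) (by positivity)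
    have he1 : e ≤ r2 s / 8 := min_le_left _ _
    have he2 : e ≤ ε * r2 s / 4 := min_le_right _ _
    filter_upwards [h1, h2 e he0, hq2 s] with j ⟨_, _, _, a4, _⟩ ⟨_, b2, b3⟩ hj
    filter_upwards [Fam.eventually_valid (𝔉 := 𝔉) (a j) q hq1, eventually_inv_le he0]
      with s' hs hs' p
    have hγ := a4 (q s')
    constructor
    · intro hne
      change Λ.D p (q s) ≤ r2 s / 2
      by_cases h0 : γ j p * (𝔉.F (a j) p - v j) = 0
      · have hf : 𝔉.flat (s', a j, q s') p ≠ 0 := by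
          intro h3
          apply hne
          change γ j p * (𝔉.F (a j) p - v j) - γ j (q s') * 𝔉.flat (s', a j, q s') p = 0
          rw [h0, h3]; ring
        have e1 : Λ.D p (q s') ≤ r1 s' := Fam.flat_ne_zero hf
        obtain ⟨l, hl1, hl2⟩ := ((hq2 s).and (hq2 s')).exists
        have e2 := Λ.tri p (q s') (q s)
        have e3 := Λ.tri (q s') (pt l) (q s)
        rw [Λ.comm (q s') (pt l)] at e3
        linarith [r1_le s', r2_le_r1 s', r2_pos s']
      · linarith [b2 p h0, Λ.tri p (pt j) (q s)]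
    · change |γ j p * (𝔉.F (a j) p - v j) - γ j (q s') * 𝔉.flat (s', a j, q s') p| ≤ ε * (r2 s / 2)
      refine (abs_sub _ _).trans ?_
      have e1 : |γ j (q s') * 𝔉.flat (s', a j, q s') p| ≤ 1 * (1 / ((s' : ℝ) + 1)) := by
        rw [abs_mul, abs_of_nonneg hγ.1]
        gcongr
        exacts [hγ.2, hs.abs_le p]
      linarith [b3 p]

theorem comb_of_atom (E : Ev 𝔉 G) (U : Ultrafilter ℕ) (hU : (U : Filter ℕ) ≤ atTop) {y : ℕ → Q}
    (hy : ∀ i, y i ∈ cspan G) {C c : ℝ} (hB : BSS y C) (hc : 0 < c) (x : ℕ → ℕ × J × M)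
    (hx : ∀ᶠ i in U, c ≤ E.ev (x i) (y i)) : Comb G y := by
  have hC := 𝔉.CF_nonneg
  have hval : ∀ᶠ i in U, 𝔉.Valid (x i) := by
    filter_upwards [hx] with i hi
    by_contra h
    have := eq_zero_of_cspan (E.ev (x i)) (fun p => by simp [E.eq, Fam.atom, h]) (hy i)
    linarith
  rcases (U.map x).le_cofinite_or_eq_pure with h | ⟨x₀, h⟩
  · have hs : ∀ s₀ : ℕ, ∀ᶠ i in U, s₀ ≤ (x i).1 := by
      intro s₀
      have : ∀ᶠ i in U, x i ∉ {x | 𝔉.Valid x ∧ x.1 ≤ s₀} :=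
        h (Fam.finite_valid (𝔉 := 𝔉) s₀).compl_mem_cofinite
      filter_upwards [this, hval] with i h1 h2
      by_contra h3
      exact h1 ⟨h2, (not_le.1 h3).le⟩
    refine comb_of_fine E U hU hy (c := c) (K := 𝔉.CF + 1) hc (fun i => (x i).2.1)
      (fun i => (𝔉.CF + 1) • E.ev (x i)) (fun i p => beta (x i).1 (Λ.D p (x i).2.2))
      (fun i => 𝔉.F (x i).2.1 (x i).2.2) (fun i => (x i).2.2) ?_ fun ε hε => ?_
    · filter_upwards [hx, hval] with i h1 h2
      refine ⟨?_, ?_, fun p p' => ?_, fun p => ⟨beta_nonneg _ _, beta_le_one _ _⟩,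
        1 / r2 (x i).1, by have := r2_pos (x i).1; positivity, fun p p' => ?_⟩
      · simp only [smul_apply, smul_eq_mul]; nlinarith
      · rw [norm_smul, Real.norm_of_nonneg (by linarith)]
        have : ‖E.ev (x i)‖ ≤ 1 :=
          ContinuousLinearMap.opNorm_le_bound _ zero_le_one fun y => by simpa using E.le _ y
        nlinarith
      · simp only [smul_apply, smul_eq_mul, E.eq, Fam.atom, if_pos h2, Fam.flat]
        field_simp
        ring
      · refine (abs_beta_sub_le _ _ _).trans ?_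
        have := r2_pos (x i).1
        gcongr
        exact Λ.abs_sub_le _ _ _
    · obtain ⟨s₀, hs₀⟩ := eventually_atTop.1 (eventually_inv_le hε)
      filter_upwards [hs s₀, hval] with i h1 h2
      have h3 := hs₀ _ h1
      exact ⟨fun p p' => (h2.err p p').trans (by gcongr),
        fun p hp => (Fam.flat_ne_zero hp).trans ((r1_le _).trans h3),
        fun p => (h2.abs_le p).trans h3⟩
  · exfalso
    have h1 : ∀ᶠ i in U, x i = x₀ := by
      have : {x₀} ∈ U.map x := by rw [h]; exact mem_pure.2 rfl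
      exact this
    have h2 := ((hB.map (E.ev x₀)).tendsto_zero.mono_left hU).eventually (gt_mem_nhds hc)
    obtain ⟨i, ⟨a1, a2⟩, a3⟩ := ((h1.and h2).and hx).exists
    rw [a1] at a3
    linarith

end

end Crest.Agent.R091
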