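import Mathlib

set_option autoImplicit false

/-! A totally bounded location pseudometric. -/

namespace Crest.Agent.R091

open Finset

/-- a totally bounded pseudometric dominated by the norm distance -/
structure Loc (M : Type) [NormedAddCommGroup M] where
  D : M → M → ℝ
  self : ∀ p, D p p = 0
  comm : ∀ p q, D p q = D q p
  tri : ∀ p q r, D p r ≤ D p q + D q r
  le : ∀ p q, D p q ≤ ‖p - q‖
  net : ∀ r > (0 : ℝ), ∃ N : Finset M, ∀ p, ∃ q ∈ N, D p q ≤ r
  far : ∀ R : ℝ, ∃ κ > (0 : ℝ), ∀ p q, ‖p‖ ≤ R → R + 1 ≤ ‖q‖ → κ ≤ D p q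

variable {M : Type} [NormedAddCommGroup M]

namespace Loc

variable (Λ : Loc M)

theorem nonneg (p q : M) : 0 ≤ Λ.D p q := by
  have := Λ.tri p q p
  rw [Λ.self, Λ.comm q p] at this
  linarith

theorem abs_sub_le (p p' q : M) : |Λ.D p q - Λ.D p' q| ≤ Λ.D p p' := by
  rw [abs_le]
  have h1 := Λ.tri p p' q
  have h2 := Λ.tri p' p q
  rw [Λ.comm p' p] at h2
  constructor <;> linarith

/-- Lipschitz for `D` on bounded sets -/
def LB (f : M → ℝ) : Prop :=
  ∀ R : ℝ, ∃ L, 0 ≤ L ∧ ∀ p q, ‖p‖ ≤ R → ‖q‖ ≤ R → |f p - f q| ≤ L * Λ.D p q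

/-- globally Lipschitz for `D` -/
def Glo (f : M → ℝ) : Prop := ∃ L, 0 ≤ L ∧ ∀ p q, |f p - f q| ≤ L * Λ.D p q

variable {Λ}

theorem Glo.lb {f : M → ℝ} (h : Λ.Glo f) : Λ.LB f := fun _ =>
  let ⟨L, h0, h1⟩ := h
  ⟨L, h0, fun p q _ _ => h1 p q⟩

theorem LB.bdd {f : M → ℝ} (h : Λ.LB f) (R : ℝ) : ∃ B, 0 ≤ B ∧ ∀ p, ‖p‖ ≤ R → |f p| ≤ B := by
  obtain ⟨L, hL, h1⟩ := h R
  refine ⟨|f 0| + L * |R|, by positivity, fun p hp => ?_⟩
  have h2 := h1 p 0 hp (by simpa using (norm_nonneg p).trans hp)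
  have h3 : Λ.D p 0 ≤ |R| := by
    have := Λ.le p 0
    rw [sub_zero] at this
    linarith [le_abs_self R]
  have h4 : L * Λ.D p 0 ≤ L * |R| := by gcongr
  have h5 := abs_add_le (f p - f 0) (f 0)
  rw [sub_add_cancel] at h5
  linarith

theorem LB.const (c : ℝ) : Λ.LB fun _ => c := fun _ => ⟨0, le_rfl, by simp⟩

theorem LB.add {f g : M → ℝ} (hf : Λ.LB f) (hg : Λ.LB g) : Λ.LB fun p => f p + g p := by
  intro R
  obtain ⟨L, hL, h1⟩ := hf R
  obtain ⟨L', hL', h2⟩ := hg R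
  refine ⟨L + L', by positivity, fun p q hp hq => ?_⟩
  have := abs_add_le (f p - f q) (g p - g q)
  have e : f p + g p - (f q + g q) = f p - f q + (g p - g q) := by ring
  rw [e]
  linarith [h1 p q hp hq, h2 p q hp hq]

theorem LB.mul {f g : M → ℝ} (hf : Λ.LB f) (hg : Λ.LB g) : Λ.LB fun p => f p * g p := by
  intro R
  obtain ⟨L, hL, h1⟩ := hf R
  obtain ⟨L', hL', h2⟩ := hg R
  obtain ⟨B, hB, h3⟩ := hf.bdd R
  obtain ⟨B', hB', h4⟩ := hg.bdd R
  refine ⟨B * L' + L * B', by positivity, fun p q hp hq => ?_⟩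
  have e : f p * g p - f q * g q = f p * (g p - g q) + (f p - f q) * g q := by ring
  have hD := Λ.nonneg p q
  rw [e]
  refine (abs_add_le _ _).trans ?_
  rw [abs_mul, abs_mul]
  have a1 : |f p| * |g p - g q| ≤ B * (L' * Λ.D p q) := by
    gcongr; exacts [h3 p hp, h2 p q hp hq]
  have a2 : |f p - f q| * |g q| ≤ (L * Λ.D p q) * B' := by
    gcongr; exacts [h1 p q hp hq, h4 q hq]
  nlinarith

theorem LB.sub {f g : M → ℝ} (hf : Λ.LB f) (hg : Λ.LB g) : Λ.LB fun p => f p - g p := by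
  have := hf.add ((LB.const (-1)).mul hg)
  simpa [sub_eq_add_neg] using this

theorem LB.sum {ι : Type} (s : Finset ι) {f : ι → M → ℝ} (hf : ∀ i ∈ s, Λ.LB (f i)) :
    Λ.LB fun p => ∑ i ∈ s, f i p := by
  classical
  induction s using Finset.induction_on with
  | empty => simpa using LB.const 0
  | insert a s ha ih =>
    simp only [sum_insert ha]
    exact (hf a (mem_insert_self _ _)).add (ih fun i hi => hf i (mem_insert_of_mem hi))

theorem LB.max {f g : M → ℝ} (hf : Λ.LB f) (hg : Λ.LB g) : Λ.LB fun p => max (f p) (g p) := by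
  intro R
  obtain ⟨L, hL, h1⟩ := hf R
  obtain ⟨L', hL', h2⟩ := hg R
  refine ⟨L + L', by positivity, fun p q hp hq => ?_⟩
  refine (abs_max_sub_max_le_max _ _ _ _).trans (max_le ?_ ?_)
  · nlinarith [h1 p q hp hq, Λ.nonneg p q]
  · nlinarith [h2 p q hp hq, Λ.nonneg p q]

theorem LB.min {f g : M → ℝ} (hf : Λ.LB f) (hg : Λ.LB g) : Λ.LB fun p => min (f p) (g p) := by
  intro R
  obtain ⟨L, hL, h1⟩ := hf R
  obtain ⟨L', hL', h2⟩ := hg R
  refine ⟨L + L', by positivity, fun p q hp hq => ?_⟩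
  refine (abs_min_sub_min_le_max _ _ _ _).trans (max_le ?_ ?_)
  · nlinarith [h1 p q hp hq, Λ.nonneg p q]
  · nlinarith [h2 p q hp hq, Λ.nonneg p q]

theorem LB.inv {f : M → ℝ} (hf : Λ.LB f) {c : ℝ} (hc : 0 < c) (h : ∀ p, c ≤ f p) :
    Λ.LB fun p => (f p)⁻¹ := by
  intro R
  obtain ⟨L, hL, h1⟩ := hf R
  refine ⟨L / (c * c), by positivity, fun p q hp hq => ?_⟩
  have hp0 : 0 < f p := hc.trans_le (h p)
  have hq0 : 0 < f q := hc.trans_le (h q)
  have e : (f p)⁻¹ - (f q)⁻¹ = -(f p - f q) / (f p * f q) := by field_simp; ring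
  rw [e, abs_div, abs_neg, abs_of_pos (mul_pos hp0 hq0), div_mul_eq_mul_div]
  have := h1 p q hp hq
  have hD := Λ.nonneg p q
  gcongr
  exacts [h p, h q]

theorem LB.congr {f g : M → ℝ} (hf : Λ.LB f) (h : ∀ p, g p = f p) : Λ.LB g := by
  have : g = f := funext h
  rwa [this]

theorem LB.gl {f : M → ℝ} (hf : Λ.LB f) {R : ℝ} (h0 : ∀ p, R ≤ ‖p‖ → f p = 0) : Λ.Glo f := by
  obtain ⟨L, hL, h1⟩ := hf (R + 1)
  obtain ⟨B, hB, h2⟩ := hf.bdd R
  obtain ⟨κ, hκ, h3⟩ := Λ.far R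
  have aux : ∀ p q, R + 1 ≤ ‖q‖ → |f p - f q| ≤ (L + B / κ) * Λ.D p q := by
    intro p q hq
    have hD := Λ.nonneg p q
    rw [h0 q (by linarith), sub_zero]
    rcases le_total ‖p‖ R with hp | hp
    · have a1 := h3 p q hp hq
      have a2 : B ≤ B / κ * Λ.D p q := by
        calc B = B / κ * κ := by field_simp
          _ ≤ _ := by gcongr
      nlinarith [h2 p hp]
    · rw [h0 p hp, abs_zero]; positivity
  refine ⟨L + B / κ, by positivity, fun p q => ?_⟩
  rcases le_total ‖q‖ (R + 1) with hq | hq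
  · rcases le_total ‖p‖ (R + 1) with hp | hp
    · have hD := Λ.nonneg p q
      have : 0 ≤ B / κ * Λ.D p q := by positivity
      nlinarith [h1 p q hp hq]
    · rw [abs_sub_comm, Λ.comm]; exact aux q p hp
  · exact aux p q hq

end Loc

/-- clamp to `[-R, R]` -/
def clampR (R t : ℝ) : ℝ := max (-R) (min t R)

theorem abs_clampR_sub (R s t : ℝ) : |clampR R s - clampR R t| ≤ |s - t| := by
  refine (abs_max_sub_max_le_max _ _ _ _).trans (max_le (by simp) ?_)
  refine (abs_min_sub_min_le_max _ _ _ _).trans (max_le le_rfl (by simp))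

theorem abs_clampR_le {R : ℝ} (hR : 0 ≤ R) (t : ℝ) : |clampR R t| ≤ R := by
  rw [abs_le, clampR]
  exact ⟨le_max_left _ _, max_le (by linarith) (min_le_right _ _)⟩

theorem clampR_eq {R t : ℝ} (h : |t| ≤ R) : clampR R t = t := by
  rw [abs_le] at h
  rw [clampR, min_eq_left h.2, max_eq_right h.1]

theorem exists_loc {ι : Type} [Countable ι] (g : ι → M → ℝ)
    (hg : ∀ j p q, |g j p - g j q| ≤ ‖p - q‖) (hg0 : ∀ j, g j 0 = 0) :
    ∃ Λ : Loc M, ∀ j, Λ.LB (g j) := by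
  obtain ⟨en, hen⟩ := exists_surjective_nat (Option ι × ℕ)
  let g' : Option ι → M → ℝ := fun o => o.elim (fun p => ‖p‖) g
  have hg' : ∀ o p q, |g' o p - g' o q| ≤ ‖p - q‖ := by
    rintro (_ | j) p q
    · exact abs_norm_sub_norm_le p q
    · exact hg j p q
  have hg0' : ∀ o p, |g' o p| ≤ ‖p‖ := by
    rintro (_ | j) p
    · simp [g']
    · simpa [hg0, g'] using hg j p 0
  let θ : ℕ → M → ℝ := fun e p =>
    (1 / 2) ^ e / (((en e).2 : ℝ) + 1) * clampR (en e).2 (g' (en e).1 p)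
  have hw : ∀ e, 0 < (1 / 2 : ℝ) ^ e / (((en e).2 : ℝ) + 1) := fun e => by positivity
  have hθ1 : ∀ e p, |θ e p| ≤ (1 / 2) ^ e := by
    intro e p
    simp only [θ]
    rw [abs_mul, abs_of_pos (hw e), div_mul_eq_mul_div, div_le_iff₀ (by positivity)]
    gcongr
    linarith [abs_clampR_le (Nat.cast_nonneg (α := ℝ) (en e).2) (g' (en e).1 p)]
  have hθ2 : ∀ e p q, |θ e p - θ e q| ≤ ‖p - q‖ := by
    intro e p q
    simp only [θ]
    rw [← mul_sub, abs_mul, abs_of_pos (hw e)]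
    have h1 : (1 / 2 : ℝ) ^ e / (((en e).2 : ℝ) + 1) ≤ 1 := by
      rw [div_le_one (by positivity)]
      have : (1 / 2 : ℝ) ^ e ≤ 1 := pow_le_one₀ (by norm_num) (by norm_num)
      linarith [Nat.cast_nonneg (α := ℝ) (en e).2]
    have h2 := (abs_clampR_sub (en e).2 _ _).trans (hg' (en e).1 p q)
    nlinarith [abs_nonneg (clampR (en e).2 (g' (en e).1 p) - clampR (en e).2 (g' (en e).1 q))]
  let D : M → M → ℝ := fun p q => ⨆ e, |θ e p - θ e q|
  have hbdd : ∀ p q, BddAbove (Set.range fun e => |θ e p - θ e q|) := fun p q =>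
    ⟨‖p - q‖, by rintro _ ⟨e, rfl⟩; exact hθ2 e p q⟩
  have hle : ∀ e p q, |θ e p - θ e q| ≤ D p q := fun e p q => le_ciSup (hbdd p q) e
  have hcl : ∀ (o : Option ι) (R : ℕ), ∃ L, 0 < L ∧ ∀ p q,
      |clampR R (g' o p) - clampR R (g' o q)| ≤ L * D p q := by
    intro o R
    obtain ⟨e, he⟩ := hen (o, R)
    refine ⟨((1 / 2 : ℝ) ^ e / (((en e).2 : ℝ) + 1))⁻¹, inv_pos.2 (hw e), fun p q => ?_⟩
    have := hle e p q
    simp only [θ] at this
    rw [← mul_sub, abs_mul, abs_of_pos (hw e)] at this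
    rw [inv_mul_eq_div, le_div_iff₀' (hw e)]
    simpa [he] using this
  refine ⟨⟨D, fun p => by simp [D], fun p q => by simp [D, abs_sub_comm], fun p q r => ?_,
    fun p q => ciSup_le fun e => hθ2 e p q, fun r hr => ?_, fun R => ?_⟩, fun j R => ?_⟩
  · exact ciSup_le fun e => (abs_sub_le _ (θ e q) _).trans (add_le_add (hle e p q) (hle e q r))
  · obtain ⟨J, hJ⟩ := exists_pow_lt_of_lt_one (show 0 < r / 2 by positivity)
      (show (1 / 2 : ℝ) < 1 by norm_num)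
    let Θ : M → (Fin J → ℝ) := fun p e => θ e p
    have hb : Bornology.IsBounded (Set.range Θ) := by
      refine (Metric.isBounded_closedBall (x := 0) (r := 1)).subset ?_
      rintro _ ⟨p, rfl⟩
      rw [mem_closedBall_zero_iff, pi_norm_le_iff_of_nonneg zero_le_one]
      intro e
      exact (hθ1 e p).trans (pow_le_one₀ (by norm_num) (by norm_num))
    obtain ⟨t, ht1, ht2, ht3⟩ := Metric.finite_approx_of_totallyBounded
      (hb.isCompact_closure.totallyBounded.subset subset_closure) r hr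
    have ht1' : ∀ v ∈ t, ∃ p, Θ p = v := fun v hv => ht1 hv
    choose! c hc using ht1'
    classical
    refine ⟨ht2.toFinset.image c, fun p => ?_⟩
    obtain ⟨v, hv, hpv⟩ := Set.mem_iUnion₂.1 (ht3 ⟨p, rfl⟩)
    refine ⟨c v, mem_image_of_mem _ (ht2.mem_toFinset.2 hv), ciSup_le fun e => ?_⟩
    by_cases he : e < J
    · have := (dist_le_pi_dist (Θ p) v ⟨e, he⟩).trans (Metric.mem_ball.1 hpv).le
      rw [← hc v hv] at this
      exact this
    · have h1 : (1 / 2 : ℝ) ^ e ≤ (1 / 2) ^ J :=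
        pow_le_pow_of_le_one (by norm_num) (by norm_num) (not_lt.1 he)
      have h2 := abs_sub (θ e p) (θ e (c v))
      linarith [hθ1 e p, hθ1 e (c v)]
  · obtain ⟨L, hL, h1⟩ := hcl none ⌈R + 1⌉₊
    refine ⟨1 / L, by positivity, fun p q hp hq => ?_⟩
    have h2 := h1 p q
    have h3 := Nat.le_ceil (R + 1)
    have h4 : clampR ⌈R + 1⌉₊ (g' none p) = ‖p‖ := clampR_eq (by simp [g']; linarith)
    have h5 : R + 1 ≤ clampR ⌈R + 1⌉₊ (g' none q) :=
      le_max_of_le_right (le_min hq h3)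
    rw [div_le_iff₀' hL]
    rw [h4, abs_sub_comm] at h2
    linarith [le_abs_self (clampR ⌈R + 1⌉₊ (g' none q) - ‖p‖)]
  · obtain ⟨L, hL, h1⟩ := hcl (some j) ⌈R⌉₊
    refine ⟨L, hL.le, fun p q hp hq => ?_⟩
    have h2 := h1 p q
    have h3 := Nat.le_ceil R
    rwa [clampR_eq ((hg0' _ p).trans (hp.trans h3)), clampR_eq ((hg0' _ q).trans (hq.trans h3))]
      at h2

end Crest.Agent.R091
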