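import Crest.Agent.R091.TypeI

set_option autoImplicit false
set_option linter.unusedSectionVars false

/-! The main construction for row 91. -/

namespace Crest.Agent.R091

open Filter Finset TopologicalSpace
open scoped Topology ZeroAtInfty RealInnerProductSpace ENNReal

noncomputable section

variable {K A : Type} [NormedAddCommGroup K] [InnerProductSpace ℝ K]
  [NormedAddCommGroup A] [InnerProductSpace ℝ A] [CompleteSpace A]
  (V : Hotel K A) {Λ : Loc (MM K A)} (𝒜 : Addr Λ eta)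

/-- `Γ` -/
def Gam0 (p : MM K A) : C₀(ℕ, HA A) :=
  c0mk (fun n => Gn V 𝒜 n p) (tendsto_of_norm_le p 2 fun n => norm_Gn_le V 𝒜 n p)

/-- second coordinates -/
def sndc (p : MM K A) : C₀(ℕ, HA A) :=
  c0mk (fun n => (p n).snd) (tendsto_of_norm_le p 1 fun n => by
    simpa using WithLp.norm_snd_le _ (p n))

/-- first coordinates -/
def fstc (p : MM K A) : C₀(ℕ, K) :=
  c0mk (fun n => (p n).fst) (tendsto_of_norm_le p 1 fun n => by
    simpa using WithLp.norm_fst_le _ (p n))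

theorem norm_toLp_le (x : K) (w : HA A) {b : ℝ} (hx : ‖x‖ ≤ b) (hw : ‖w‖ ≤ b) :
    ‖(WithLp.toLp 2 (x, w) : Bk K A)‖ ≤ 10 / 7 * b := by
  have h0 : 0 ≤ b := (norm_nonneg _).trans hx
  refine (sq_le_sq₀ (norm_nonneg _) (by positivity)).1 ?_
  rw [WithLp.prod_norm_sq_eq_of_L2]
  simp only [WithLp.toLp_fst, WithLp.toLp_snd]
  nlinarith [norm_nonneg x, norm_nonneg w]

/-- pairing -/
def emb (w : C₀(ℕ, HA A)) (x : C₀(ℕ, K)) : MM K A :=
  c0mk (fun n => WithLp.toLp 2 (x n, w n)) (squeeze_zero_norm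
    (a := fun n => 10 / 7 * max ‖x n‖ ‖w n‖)
    (fun n => norm_toLp_le _ _ (le_max_left _ _) (le_max_right _ _))
    (by simpa using ((c0_tendsto x).norm.max (c0_tendsto w).norm).const_mul (10 / 7)))

theorem sndc_emb (w : C₀(ℕ, HA A)) (x : C₀(ℕ, K)) : sndc (emb w x) = w := by
  ext n; rfl

theorem emb_sndc (p : MM K A) : emb (sndc p) (fstc p) = p := by
  ext n; rfl

theorem norm_emb_sub (w w' : C₀(ℕ, HA A)) (x x' : C₀(ℕ, K)) {b : ℝ} (hx : ‖x - x'‖ ≤ b)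
    (hw : ‖w - w'‖ ≤ b) : ‖emb w x - emb w' x'‖ ≤ 10 / 7 * b := by
  have h0 : 0 ≤ b := (norm_nonneg _).trans hx
  exact c0_norm_le (by positivity) fun n => norm_toLp_le (x n - x' n) (w n - w' n)
    ((c0_sub_apply_le x x' n).trans hx) ((c0_sub_apply_le w w' n).trans hw)

theorem le_norm_emb_sub (w w' : C₀(ℕ, HA A)) (x x' : C₀(ℕ, K)) :
    ‖x - x'‖ ≤ ‖emb w x - emb w' x'‖ :=
  c0_norm_le (norm_nonneg _) fun n =>
    (WithLp.norm_fst_le _ (emb w x n - emb w' x' n)).trans (c0_sub_apply_le _ _ n)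

theorem R_lower (p p' : MM K A) :
    ‖p - p'‖ ≤ 10 / 9 * ‖(sndc p + Gam0 V 𝒜 p) - (sndc p' + Gam0 V 𝒜 p')‖ := by
  have : ‖p - p'‖ ≤ ‖(sndc p + Gam0 V 𝒜 p) - (sndc p' + Gam0 V 𝒜 p')‖ + 1 / 10 * ‖p - p'‖ := by
    refine c0_norm_le (by positivity) fun n => (Un_lower V 𝒜 n p p').trans ?_
    gcongr
    exact c0_sub_apply_le (sndc p + Gam0 V 𝒜 p) (sndc p' + Gam0 V 𝒜 p') n
  linarith

theorem R_surj [CompleteSpace K] (ω : C₀(ℕ, HA A)) : ∃ p, sndc p + Gam0 V 𝒜 p = ω := by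
  choose inv hinv using fun (t : ℝ) (p : MM K A) (h : HA A) => exists_add_Gam V (𝒜.norm t p) h
  have hn : ∀ t p h, ‖inv t p h‖ = ‖h‖ := fun t p h => by
    rw [← norm_add_Gam V (𝒜.norm t p) (inv t p h), hinv]
  let Φ : MM K A → MM K A := fun p => c0mk (fun n => inv (eta * Real.log ‖ω n‖) p (ω n))
    (tendsto_of_norm_le ω 1 fun n => by rw [hn, one_mul])
  have hΦ : ContractingWith (1 / 20) Φ := by
    refine ⟨by norm_num, LipschitzWith.of_dist_le_mul fun p p' => ?_⟩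
    rw [dist_eq_norm, dist_eq_norm]
    refine c0_norm_le (by positivity) fun n => ?_
    set t := eta * Real.log ‖ω n‖
    change ‖inv t p (ω n) - inv t p' (ω n)‖ ≤ _
    have e : (inv t p (ω n) - inv t p' (ω n)).snd + Gam V (𝒜.u t p) (inv t p (ω n) - inv t p' (ω n))
        = -(Gam V (𝒜.u t p) (inv t p' (ω n)) - Gam V (𝒜.u t p') (inv t p' (ω n))) := by
      rw [Gam_sub, WithLp.sub_snd, eq_sub_of_add_eq (hinv t p (ω n)),
        eq_sub_of_add_eq (hinv t p' (ω n))]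
      abel
    rw [← norm_add_Gam V (𝒜.norm t p), e, norm_neg]
    simpa using rot_aux V 𝒜 (le_refl ‖ω n‖) p p' (inv t p' (ω n)) (hn _ _ _)
  refine ⟨hΦ.fixedPoint Φ, ?_⟩
  set p := hΦ.fixedPoint Φ
  have hp : Φ p = p := hΦ.fixedPoint_isFixedPt
  ext1 n
  have h1 : p n = inv (eta * Real.log ‖ω n‖) p (ω n) := by
    conv_lhs => rw [← hp]
    rfl
  have h2 : ‖p n‖ = ‖ω n‖ := by rw [h1, hn]
  change (p n).snd + Gam V (𝒜.u (eta * Real.log ‖p n‖) p) (p n) = ω n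
  rw [h2, h1, hinv]

theorem exists_psi [CompleteSpace K] {Y : Type} [NormedAddCommGroup Y] [NormedSpace ℝ Y]
    (q : Y →L[ℝ] C₀(ℕ, HA A)) (hq : ∀ y, ‖q y‖ ≤ ‖y‖) (Gt : MM K A → Y)
    (h1 : ∀ p, q (Gt p) = Gam0 V 𝒜 p) (h2 : ∀ p p', ‖Gt p - Gt p'‖ ≤ 21 / 10 * ‖p - p'‖) :
    ∃ Ψ : Y × C₀(ℕ, K) → Y, Function.Surjective Ψ ∧
      ∀ s t, 3 / 10 * ‖s - t‖ ≤ ‖Ψ s - Ψ t‖ ∧ ‖Ψ s - Ψ t‖ ≤ 4 * ‖s - t‖ := by
  refine ⟨fun s => s.1 + Gt (emb (q s.1) s.2), fun y => ?_, fun s t => ⟨?_, ?_⟩⟩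
  · obtain ⟨p, hp⟩ := R_surj V 𝒜 (q y)
    refine ⟨(y - Gt p, fstc p), ?_⟩
    have : q (y - Gt p) = sndc p := by rw [map_sub, h1, ← hp]; abel
    simp only [this, emb_sndc, sub_add_cancel]
  · set p := emb (q s.1) s.2
    set p' := emb (q t.1) t.2
    set d := ‖s.1 + Gt p - (t.1 + Gt p')‖
    have a1 : ‖p - p'‖ ≤ 10 / 9 * d := by
      refine (R_lower V 𝒜 p p').trans ?_
      have := hq (s.1 + Gt p - (t.1 + Gt p'))
      rw [map_sub, map_add, map_add, h1, h1] at this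
      rw [sndc_emb, sndc_emb]
      gcongr
    have a2 : ‖s.2 - t.2‖ ≤ 10 / 9 * d := (le_norm_emb_sub _ _ _ _).trans a1
    have a3 : ‖s.1 - t.1‖ ≤ 10 / 3 * d := by
      have e : s.1 - t.1 = (s.1 + Gt p - (t.1 + Gt p')) - (Gt p - Gt p') := by abel
      rw [e]
      linarith [norm_sub_le (s.1 + Gt p - (t.1 + Gt p')) (Gt p - Gt p'), h2 p p']
    have a4 : ‖s - t‖ ≤ 10 / 3 * d := by
      rw [Prod.norm_def]
      exact max_le a3 (a2.trans (by have : 0 ≤ d := norm_nonneg _; linarith))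
    linarith
  · have a1 : ‖s.1 - t.1‖ ≤ ‖s - t‖ := norm_fst_le (s - t)
    have a2 : ‖s.2 - t.2‖ ≤ ‖s - t‖ := norm_snd_le (s - t)
    have a3 := norm_emb_sub (q s.1) (q t.1) s.2 t.2 a2 (by rw [← map_sub]; exact (hq _).trans a1)
    have e : s.1 + Gt (emb (q s.1) s.2) - (t.1 + Gt (emb (q t.1) t.2))
        = (s.1 - t.1) + (Gt (emb (q s.1) s.2) - Gt (emb (q t.1) t.2)) := by abel
    rw [e]
    linarith [norm_add_le (s.1 - t.1) (Gt (emb (q s.1) s.2) - Gt (emb (q t.1) t.2)),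
      h2 (emb (q s.1) s.2) (emb (q t.1) t.2)]

variable [SeparableSpace (HA A)] {V}

/-- the target of the extended map -/
abbrev QQ (K A : Type) [NormedAddCommGroup K] [NormedAddCommGroup A] : Type :=
  C₀(ℕ, HA A) × lp (fun _ : ℕ × List ℕ => HA A) ∞ × lp (fun _ : ℕ × JJ × MM K A => ℝ) ∞

theorem atom_div_lip (hΛ : Good V Λ) (x : ℕ × JJ × MM K A) (p p' : MM K A) :
    ‖((fam 𝒜 hΛ).atom x p - (fam 𝒜 hΛ).atom x p') / ((fam 𝒜 hΛ).CF + 1)‖ ≤ ‖p - p'‖ := by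
  have := (fam 𝒜 hΛ).CF_nonneg
  rw [Real.norm_eq_abs, abs_div, abs_of_pos (by linarith : 0 < (fam 𝒜 hΛ).CF + 1),
    div_le_iff₀' (by linarith)]
  exact Fam.atom_lip x p p'

/-- the extended map -/
def GG (hΛ : Good V Λ) (p : MM K A) : QQ K A :=
  (Gam0 V 𝒜 p,
    ⟨fun x => blk V 𝒜 x p, memℓp_infty ⟨‖p‖, by
      rintro _ ⟨x, rfl⟩
      simpa [blk_zero] using blk_lip_one V 𝒜 x p 0⟩⟩,
    ⟨fun x => ((fam 𝒜 hΛ).atom x p - (fam 𝒜 hΛ).atom x 0) / ((fam 𝒜 hΛ).CF + 1),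
      memℓp_infty ⟨‖p‖, by
        rintro _ ⟨x, rfl⟩
        simpa using atom_div_lip 𝒜 hΛ x p 0⟩⟩)

theorem GG_zero (hΛ : Good V Λ) : GG 𝒜 hΛ 0 = 0 := by
  refine Prod.ext ?_ (Prod.ext ?_ ?_)
  · ext1 n
    exact Gam_zero V _
  · ext1; funext x
    exact blk_zero V 𝒜 x
  · ext1; funext x
    change (_ - _) / _ = (0 : ℝ)
    rw [sub_self, zero_div]

theorem GG_lip (hΛ : Good V Λ) (p p' : MM K A) :
    ‖GG 𝒜 hΛ p - GG 𝒜 hΛ p'‖ ≤ 21 / 10 * ‖p - p'‖ := by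
  have hd := norm_nonneg (p - p')
  rw [Prod.norm_def, Prod.norm_def]
  refine max_le (c0_norm_le (by positivity) fun n => Gn_lip V 𝒜 n p p') (max_le ?_ ?_)
  · refine lp.norm_le_of_forall_le (by positivity) fun x => ?_
    exact (blk_lip_one V 𝒜 x p p').trans (by linarith)
  · refine lp.norm_le_of_forall_le (by positivity) fun x => ?_
    refine le_trans ?_ ((atom_div_lip 𝒜 hΛ x p p').trans (by linarith))
    change ‖((_ : ℝ) - (_ : ℝ)) / (_ : ℝ) - ((_ : ℝ) - (_ : ℝ)) / (_ : ℝ)‖ ≤ _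
    rw [← sub_div, sub_sub_sub_cancel_right]

/-- projections -/
def prG (hΛ : Good V Λ) : Pr V 𝒜 (GG 𝒜 hΛ) where
  P := fun x => (lp.evalCLM ℝ (fun _ : ℕ × List ℕ => HA A) ∞ x).comp
    ((ContinuousLinearMap.fst ℝ _ _).comp (ContinuousLinearMap.snd ℝ _ _))
  le := fun x y => (lp.norm_apply_le_norm ENNReal.top_ne_zero y.2.1 x).trans
    ((norm_fst_le y.2).trans (norm_snd_le y))
  eq := fun _ _ => rfl

/-- evaluations -/
def evG (hΛ : Good V Λ) : Ev (fam 𝒜 hΛ) (GG 𝒜 hΛ) where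
  ev := fun x => (lp.evalCLM ℝ (fun _ : ℕ × JJ × MM K A => ℝ) ∞ x).comp
    ((ContinuousLinearMap.snd ℝ _ _).comp (ContinuousLinearMap.snd ℝ _ _))
  le := fun x y => (lp.norm_apply_le_norm ENNReal.top_ne_zero y.2.2 x).trans
    ((norm_snd_le y.2).trans (norm_snd_le y))
  eq := fun _ _ => rfl

theorem GG_comb (hΛ : Good V Λ) (y : ℕ → QQ K A) (C c : ℝ) (hy : ∀ i, y i ∈ cspan (GG 𝒜 hΛ))
    (hB : BSS y C) (hc : 0 < c) (h : ∀ i, c ≤ ‖y i‖) : Comb (GG 𝒜 hΛ) y := by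
  have hU := Nat.hyperfilter_le_atTop
  set U := hyperfilter ℕ
  have key : ∀ i, (∃ x, c / 20 ≤ ‖(prG 𝒜 hΛ).P x (y i)‖) ∨
      (∃ x, c / 20 ≤ (evG 𝒜 hΛ).ev x (y i)) ∨ ∃ x, c / 20 ≤ (evG 𝒜 hΛ).ev x (-y i) := by
    intro i
    by_contra h1
    push Not at h1
    obtain ⟨a1, a2, a3⟩ := h1
    have b1 : ‖(y i).1‖ ≤ c / 2 := by
      refine c0_norm_le (by positivity) fun n => ?_
      have e := eq_zero_of_cspan ((c0eval n).comp (ContinuousLinearMap.fst ℝ _ _)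
        - (10 : ℝ) • (prG 𝒜 hΛ).P (n, [])) (fun p => by
          rw [sub_apply, smul_apply, (prG 𝒜 hΛ).eq, blk_nil, smul_smul]
          norm_num
          exact sub_self _) (hy i)
      have e2 : (y i).1 n = (10 : ℝ) • (prG 𝒜 hΛ).P (n, []) (y i) := sub_eq_zero.1 e
      rw [e2, norm_smul, Real.norm_of_nonneg (by norm_num)]
      linarith [a1 (n, [])]
    have b2 : ‖(y i).2.1‖ ≤ c / 2 :=
      lp.norm_le_of_forall_le (by positivity) fun x => (a1 x).le.trans (by linarith)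
    have b3 : ‖(y i).2.2‖ ≤ c / 2 := by
      refine lp.norm_le_of_forall_le (by positivity) fun x => ?_
      have c1 := a2 x
      have c2 := a3 x
      rw [map_neg] at c2
      change |(evG 𝒜 hΛ).ev x (y i)| ≤ c / 2
      rw [abs_le]
      constructor <;> linarith
    have b4 : ‖y i‖ ≤ c / 2 := by
      rw [Prod.norm_def, Prod.norm_def]
      exact max_le b1 (max_le b2 b3)
    linarith [h i]
  have hc' : 0 < c / 20 := by positivity
  rcases Ultrafilter.eventually_or.1 (Eventually.of_forall key : ∀ᶠ i in U, _) with h1 | h1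
  · obtain ⟨x, hx⟩ := h1.choice
    exact comb_of_blk hΛ (evG 𝒜 hΛ) (prG 𝒜 hΛ) U hU hy hB hc' x hx
  rcases Ultrafilter.eventually_or.1 h1 with h1 | h1
  · obtain ⟨x, hx⟩ := h1.choice
    exact comb_of_atom (evG 𝒜 hΛ) U hU hy hB hc' x hx
  · obtain ⟨x, hx⟩ := h1.choice
    refine Comb.of_neg (comb_of_atom (evG 𝒜 hΛ) U hU (fun i => neg_mem (hy i))
      (C := ‖-ContinuousLinearMap.id ℝ (QQ K A)‖ * C) ?_ hc' x hx)
    exact hB.map (-ContinuousLinearMap.id ℝ (QQ K A))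

theorem main (K : Type) [NormedAddCommGroup K] [InnerProductSpace ℝ K] [CompleteSpace K]
    [SeparableSpace K] :
    ∃ (Y : Type) (_ : NormedAddCommGroup Y) (_ : NormedSpace ℝ Y), CompleteSpace Y ∧
      SeparableSpace Y ∧ (∃ Ψ : Y × C₀(ℕ, K) → Y, Function.Surjective Ψ ∧
        ∀ s t, 3 / 10 * ‖s - t‖ ≤ ‖Ψ s - Ψ t‖ ∧ ‖Ψ s - Ψ t‖ ≤ 4 * ‖s - t‖) ∧
      ∀ (E : Type) [NormedAddCommGroup E] [NormedSpace ℝ E] (e : E), e ≠ 0 →
        ∀ (T : C₀(ℕ, E) →L[ℝ] Y) (c : ℝ), 0 < c → (∀ v, c * ‖v‖ ≤ ‖T v‖) → False := by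
  have : SeparableSpace (lp (fun _ : ℕ => K) 2) := separable_lp2
  have : SeparableSpace (HA (lp (fun _ : ℕ => K) 2)) := separable_lp2
  have : SeparableSpace (Bk K (lp (fun _ : ℕ => K) 2)) :=
    (WithLp.prodContinuousLinearEquiv 2 ℝ K
      (HA (lp (fun _ : ℕ => K) 2))).symm.surjective.denseRange.separableSpace
      (WithLp.prodContinuousLinearEquiv 2 ℝ K (HA (lp (fun _ : ℕ => K) 2))).symm.continuous
  have : SeparableSpace (MM K (lp (fun _ : ℕ => K) 2)) := separable_c0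
  obtain ⟨Λ, hΛ⟩ := exists_good (stdHotel K)
  obtain ⟨𝒜⟩ := exists_addr Λ eta_pos
  obtain ⟨Y, i1, i2, h1, h2, j, Gt, hj, hGt, hlip, hno⟩ := exists_interp (GG 𝒜 hΛ) (GG_zero 𝒜 hΛ)
    (by norm_num) (GG_lip 𝒜 hΛ) (GG_comb 𝒜 hΛ)
  refine ⟨Y, i1, i2, h1, h2, exists_psi (stdHotel K) 𝒜 ((ContinuousLinearMap.fst ℝ _ _).comp j)
    (fun y => (norm_fst_le (j y)).trans (hj y)) Gt (fun p => ?_) hlip, ?_⟩
  · rw [ContinuousLinearMap.comp_apply, hGt]; rfl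
  · intro E _ _ e he T c hc hT
    refine hno _ _ (c * ‖e‖) ((bss_c0single e).map T) (mul_pos hc (norm_pos_iff.2 he)) fun i => ?_
    refine le_trans ?_ (hT _)
    gcongr
    exact le_norm_c0single i e

theorem lower_of_equiv {E F : Type} [NormedAddCommGroup E] [NormedSpace ℝ E] [NormedAddCommGroup F]
    [NormedSpace ℝ F] (e : E ≃L[ℝ] F) (v : E) :
    (‖(e.symm : F →L[ℝ] E)‖ + 1)⁻¹ * ‖v‖ ≤ ‖e v‖ := by
  have h := (e.symm : F →L[ℝ] E).le_opNorm (e v)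
  simp only [ContinuousLinearEquiv.coe_coe, ContinuousLinearEquiv.symm_apply_apply] at h
  rw [inv_mul_le_iff₀ (by positivity)]
  nlinarith [norm_nonneg (e v)]

end

end Crest.Agent.R091
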