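import Crest.Agent.R091.Blocks
import Crest.Agent.R091.Flat

set_option autoImplicit false
set_option linter.unusedSectionVars false

/-! Regularity of the cut blocks with respect to the location pseudometric. -/

namespace Crest.Agent.R091

open Filter Finset TopologicalSpace
open scoped Topology ZeroAtInfty RealInnerProductSpace

noncomputable section

variable {K A : Type} [NormedAddCommGroup K] [InnerProductSpace ℝ K]
  [NormedAddCommGroup A] [InnerProductSpace ℝ A] [CompleteSpace A] [SeparableSpace (HA A)]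

/-- a dense sequence in the ball of radius two -/
def dd (A : Type) [NormedAddCommGroup A] [SeparableSpace (HA A)] (e : ℕ) : HA A :=
  if ‖denseSeq (HA A) e‖ ≤ 2 then denseSeq (HA A) e else 0

theorem norm_dd_le (e : ℕ) : ‖dd A e‖ ≤ 2 := by
  unfold dd
  split_ifs with h
  · exact h
  · simp

theorem exists_dd {ξ : HA A} (h : ‖ξ‖ ≤ 1) : ∃ e, ‖dd A e - ξ‖ ≤ 1 / 2 := by
  obtain ⟨e, he⟩ := (denseRange_denseSeq (HA A)).exists_dist_lt ξ (show (0 : ℝ) < 1 / 2 by norm_num)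
  rw [dist_comm, dist_eq_norm] at he
  have : ‖denseSeq (HA A) e‖ ≤ 2 := by
    linarith [norm_sub_norm_le (denseSeq (HA A) e) ξ]
  exact ⟨e, by rw [dd, if_pos this]; exact he.le⟩

variable (V : Hotel K A)

/-- the coordinates controlled by the location pseudometric -/
structure Good (Λ : Loc (MM K A)) : Prop where
  rho : ∀ n, Λ.LB fun p => ‖p n‖
  sig : ∀ m, Λ.LB (sig m)
  al : ∀ n e (i : I), Λ.LB fun p => ⟪dd A e i, V.c (p n).fst⟫
  be : ∀ n e (i j : I), Λ.LB fun p => ⟪dd A e i, V.s ((p n).snd j) - (p n).snd j⟫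

theorem exists_good : ∃ Λ : Loc (MM K A), Good V Λ := by
  let g : ℕ ⊕ ℕ ⊕ (ℕ × ℕ × I) ⊕ (ℕ × ℕ × I × I) → MM K A → ℝ := fun x => match x with
    | Sum.inl n => fun p => ‖p n‖
    | Sum.inr (Sum.inl m) => sig m
    | Sum.inr (Sum.inr (Sum.inl (n, e, i))) => fun p => 1 / 2 * ⟪dd A e i, V.c (p n).fst⟫
    | Sum.inr (Sum.inr (Sum.inr (n, e, i, j))) =>
        fun p => 1 / 4 * ⟪dd A e i, V.s ((p n).snd j) - (p n).snd j⟫
  have hdd : ∀ e (i : I), ‖dd A e i‖ ≤ 2 := fun e i =>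
    (lp.norm_apply_le_norm (by norm_num) _ i).trans (norm_dd_le e)
  obtain ⟨Λ, hΛ⟩ := exists_loc g (by
    rintro (n | m | ⟨n, e, i⟩ | ⟨n, e, i, j⟩) p q
    · exact rho_lip n p q
    · exact sig_lip m p q
    · simp only [g]
      rw [← mul_sub, ← inner_sub_right, ← map_sub, abs_mul, abs_of_pos (by norm_num)]
      have h1 := abs_real_inner_le_norm (dd A e i) (V.c ((p n).fst - (q n).fst))
      rw [V.norm_c] at h1
      have h2 : ‖(p n).fst - (q n).fst‖ ≤ ‖p - q‖ :=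
        (WithLp.norm_fst_le _ (p n - q n)).trans (c0_sub_apply_le p q n)
      nlinarith [hdd e i, norm_nonneg ((p n).fst - (q n).fst), norm_nonneg (dd A e i)]
    · simp only [g]
      have e1 : V.s ((p n).snd j) - (p n).snd j - (V.s ((q n).snd j) - (q n).snd j)
          = V.s ((p n).snd j - (q n).snd j) - ((p n).snd j - (q n).snd j) := by
        rw [map_sub]; abel
      rw [← mul_sub, ← inner_sub_right, e1, abs_mul, abs_of_pos (by norm_num)]
      have h1 := abs_real_inner_le_norm (dd A e i)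
        (V.s ((p n).snd j - (q n).snd j) - ((p n).snd j - (q n).snd j))
      have h2 : ‖(p n).snd j - (q n).snd j‖ ≤ ‖p - q‖ :=
        (lp.norm_apply_le_norm (by norm_num) (p n - q n).snd j).trans
          ((WithLp.norm_snd_le _ (p n - q n)).trans (c0_sub_apply_le p q n))
      have h3 := norm_sub_le (V.s ((p n).snd j - (q n).snd j)) ((p n).snd j - (q n).snd j)
      rw [V.norm_s] at h3
      nlinarith [hdd e i, norm_nonneg (dd A e i),
        norm_nonneg (V.s ((p n).snd j - (q n).snd j) - ((p n).snd j - (q n).snd j))]) (by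
    rintro (n | m | ⟨n, e, i⟩ | ⟨n, e, i, j⟩)
    · simp [g]
    · exact sig_zero m
    · simp [g]
    · simp [g])
  refine ⟨Λ, fun n => hΛ (Sum.inl n), fun m => hΛ (Sum.inr (Sum.inl m)), fun n e i => ?_,
    fun n e i j => ?_⟩
  · refine ((Loc.LB.const 2).mul (hΛ (Sum.inr (Sum.inr (Sum.inl (n, e, i)))))).congr fun p => ?_
    simp only [g]; ring
  · refine ((Loc.LB.const 4).mul (hΛ (Sum.inr (Sum.inr (Sum.inr (n, e, i, j)))))).congr fun p => ?_
    simp only [g]; ring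

variable {V} {Λ : Loc (MM K A)} (𝒜 : Addr Λ eta)

theorem exists_nbhd (T : Finset I) : ∃ T' : Finset I, ∀ t p, ∀ i ∈ T, 𝒜.u t p i ≠ 0 →
    ∀ j ∉ T', 𝒜.u t p j = 0 := by
  refine ⟨T.biUnion fun i => (Icc (i.1 - 2) (i.1 + 2)).biUnion
    fun k => ({k} : Finset ℤ) ×ˢ range (𝒜.ν k), fun t p i hi h j hj => ?_⟩
  by_contra h2
  apply hj
  have h3 := abs_lt.1 (𝒜.supp t p i h).1
  have h4 := 𝒜.supp t p j h2
  have h5 := abs_lt.1 h4.1
  simp only [mem_biUnion, mem_Icc, mem_product, mem_singleton, mem_range]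
  refine ⟨i, hi, j.1, ⟨?_, ?_⟩, rfl, h4.2⟩
  · have : ((i.1 : ℝ) - 2) ≤ j.1 := by linarith
    exact_mod_cast this
  · have : (j.1 : ℝ) ≤ i.1 + 2 := by linarith
    exact_mod_cast this

theorem exists_low (T : Finset I) : ∃ b₁ > (0 : ℝ), ∀ b, 0 < b → b ≤ b₁ → ∀ p, ∀ i ∈ T,
    𝒜.u (eta * Real.log b) p i = 0 := by
  obtain ⟨k, hk⟩ := (T.image fun i => (i.1 : ℝ)).bddBelow
  refine ⟨Real.exp ((k - 1) / eta), Real.exp_pos _, fun b hb hb1 p i hi => ?_⟩
  by_contra h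
  have h1 := (abs_lt.1 (𝒜.supp _ p i h).1).1
  have h2 : k ≤ (i.1 : ℝ) := hk (mem_coe.2 (mem_image_of_mem (fun i : I => (i.1 : ℝ)) hi))
  have h3 := Real.log_le_log hb hb1
  rw [Real.log_exp, le_div_iff₀' eta_pos] at h3
  linarith

theorem lb_u (hΛ : Good V Λ) (n : ℕ) {b₁ : ℝ} (hb : 0 < b₁) (i : I) :
    Λ.LB fun p => 𝒜.u (eta * Real.log (max ‖p n‖ b₁)) p i := by
  intro R
  obtain ⟨L, hL, h1⟩ := ((hΛ.rho n).max (Loc.LB.const b₁)) R
  have := eta_pos
  have aux : ∀ p q : MM K A, ‖p‖ ≤ R → ‖q‖ ≤ R → max ‖q n‖ b₁ ≤ max ‖p n‖ b₁ →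
      |𝒜.u (eta * Real.log (max ‖p n‖ b₁)) p i - 𝒜.u (eta * Real.log (max ‖q n‖ b₁)) q i|
        ≤ 16 * eta * (L + 1) / b₁ * Λ.D p q := by
    intro p q hp hq h
    have h2 := 𝒜.lip_log eta_pos (hb.trans_le (le_max_right ‖q n‖ b₁)) h p q
    have h3 := lp.norm_apply_le_norm (by norm_num)
      (𝒜.u (eta * Real.log (max ‖p n‖ b₁)) p - 𝒜.u (eta * Real.log (max ‖q n‖ b₁)) q) i
    have h4 := (le_abs_self _).trans (h1 p q hp hq)
    rw [div_mul_eq_mul_div, le_div_iff₀ hb]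
    calc _ ≤ ‖𝒜.u (eta * Real.log (max ‖p n‖ b₁)) p - 𝒜.u (eta * Real.log (max ‖q n‖ b₁)) q‖
          * max ‖q n‖ b₁ := by
          gcongr
          exacts [h3, le_max_right _ _]
      _ ≤ 16 * eta * (max ‖p n‖ b₁ - max ‖q n‖ b₁ + Λ.D p q) := h2
      _ ≤ 16 * eta * (L * Λ.D p q + Λ.D p q) := by gcongr
      _ = _ := by ring
  refine ⟨16 * eta * (L + 1) / b₁, by positivity, fun p q hp hq => ?_⟩
  rcases le_total (max ‖q n‖ b₁) (max ‖p n‖ b₁) with h | h
  · exact aux p q hp hq h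
  · rw [abs_sub_comm, Λ.comm]; exact aux q p hq hp h

theorem lb_cut (hΛ : Good V Λ) (n : ℕ) (l : List ℕ) (m e : ℕ) (T : Finset I) :
    Λ.LB fun p => ⟪res (T : Set I) (dd A e), cut V 𝒜 n l m p⟫ := by
  obtain ⟨T', hT'⟩ := exists_nbhd 𝒜 T
  obtain ⟨b₁, hb₁, hlow⟩ := exists_low 𝒜 T
  have hu := lb_u 𝒜 hΛ n hb₁
  have h1 : Λ.LB fun p => ⟪res (T : Set I) (dd A e),
      Gam V (𝒜.u (eta * Real.log (max ‖p n‖ b₁)) p) (p n)⟫ := by
    refine ((Loc.LB.sum T fun i _ => (hu i).mul (hΛ.al n e i)).add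
      (Loc.LB.sum T fun i _ => Loc.LB.sum T' fun j _ =>
        (hu i).mul ((hu j).mul (hΛ.be n e i j)))).congr fun p => ?_
    exact inner_res_Gam V T T' _ _ (hT' _ p) _
  have h2 : Λ.LB fun p => (max ‖p n‖ b₁)⁻¹ :=
    ((hΛ.rho n).max (Loc.LB.const b₁)).inv hb₁ fun p => le_max_right _ _
  have h3 := (lam_lb hΛ.rho hΛ.sig n l).sub (lam_lb hΛ.rho hΛ.sig n (m :: l))
  refine (((Loc.LB.const (wt l.length)).mul (h3.mul h2)).mul h1).congr fun p => ?_
  rw [cut_eq, real_inner_smul_right]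
  have hz : ∀ b, 0 < b → b ≤ b₁ →
      ⟪res (T : Set I) (dd A e), Gam V (𝒜.u (eta * Real.log b) p) (p n)⟫ = 0 := by
    intro b h0 hb
    by_contra h
    obtain ⟨i, hi, h⟩ := inner_res_ne_zero h
    exact h (Gam_apply_eq_zero V (hlow b h0 hb p i hi) _)
  rcases le_total ‖p n‖ b₁ with h | h
  · rw [max_eq_right h, hz b₁ hb₁ le_rfl, mul_zero]
    rcases (norm_nonneg (p n)).eq_or_lt with h0 | h0
    · rw [← h0, div_zero, mul_zero, zero_mul]
    · rw [Gn, un, hz _ h0 h, mul_zero]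
  · rw [max_eq_left h, div_eq_mul_inv]; rfl

theorem cut_far {n : ℕ} {l : List ℕ} {m : ℕ} {p : MM K A} (h : cut V 𝒜 n l m p ≠ 0) :
    ‖p‖ < 2 * m := by
  have h1 := lam_cut_imp' (cut_ne_zero V 𝒜 h)
  have h2 := c0_apply_le p n
  have h3 := norm_sub_le_sig m p
  nlinarith [four_le_SS, sig_nonneg m p]

/-- index set of the functions to be flattened -/
abbrev JJ : Type := ℕ × List ℕ × ℕ × ℕ × Finset I

/-- the family of cut functionals -/
def fam (hΛ : Good V Λ) : Fam Λ JJ where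
  F := fun x p => ⟪res (x.2.2.2.2 : Set I) (dd A x.2.2.2.1), cut V 𝒜 x.1 x.2.1 x.2.2.1 p⟫
  enc := (exists_injective_nat JJ).choose
  fin := fun s => (Set.finite_Iic s).preimage (exists_injective_nat JJ).choose_spec.injOn
  CF := 2 * (1 + 2 * SS)
  CF_nonneg := by linarith [SS_pos]
  lip := fun x p q => by
    rw [← inner_sub_right]
    refine (abs_real_inner_le_norm _ _).trans ?_
    rw [mul_assoc]
    gcongr
    exacts [(norm_res_le _ _).trans (norm_dd_le _), cut_lip V 𝒜 _ _ _ p q]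
  glo := fun x => (lb_cut 𝒜 hΛ x.1 x.2.1 x.2.2.1 x.2.2.2.1 x.2.2.2.2).gl (R := 2 * x.2.2.1)
    fun p hp => by
      by_cases h : cut V 𝒜 x.1 x.2.1 x.2.2.1 p = 0
      · rw [h, inner_zero_right]
      · exact absurd (cut_far 𝒜 h) (not_lt.2 hp)

end

end Crest.Agent.R091
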