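import Mathlib

set_option autoImplicit false

/-! Sequences with bounded sign sums. -/

namespace Crest.Agent.R091

open scoped RealInnerProductSpace ENNReal Topology
open Filter Finset

/-- bounded sign sums -/
def BSS {E : Type} [NormedAddCommGroup E] [NormedSpace ℝ E] (y : ℕ → E) (C : ℝ) : Prop :=
  ∀ (F : Finset ℕ) (ε : ℕ → ℝ), (∀ i, |ε i| ≤ 1) → ‖∑ i ∈ F, ε i • y i‖ ≤ C

section
variable {E E' : Type} [NormedAddCommGroup E] [NormedSpace ℝ E] [NormedAddCommGroup E']
  [NormedSpace ℝ E'] {y : ℕ → E} {C : ℝ}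

theorem BSS.nonneg (h : BSS y C) : 0 ≤ C := by
  simpa using h ∅ 0 (by simp)

theorem BSS.comp (h : BSS y C) {f : ℕ → ℕ} (hf : Function.Injective f) : BSS (y ∘ f) C := by
  intro F ε hε
  have := h (F.map ⟨f, hf⟩) (Function.extend f ε 0) (fun i => by
    by_cases hi : ∃ a, f a = i
    · obtain ⟨a, rfl⟩ := hi
      rw [hf.extend_apply]; exact hε a
    · rw [Function.extend_apply' _ _ _ hi]; simp)
  rw [Finset.sum_map] at this
  simpa [hf.extend_apply] using this

theorem BSS.map (h : BSS y C) (T : E →L[ℝ] E') : BSS (fun i => T (y i)) (‖T‖ * C) := by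
  intro F ε hε
  have e : ∑ i ∈ F, ε i • T (y i) = T (∑ i ∈ F, ε i • y i) := by simp [map_sum]
  rw [e]
  exact (T.le_opNorm _).trans (by gcongr; exact h F ε hε)

end

theorem exists_signs (B : ℕ → ℕ → ℝ) (N : ℕ) : ∃ ε : ℕ → ℝ, (∀ i, |ε i| ≤ 1) ∧
    ∑ j ∈ range N, B j j ≤ ∑ j ∈ range N, ∑ l ∈ range N, ε j * ε l * B j l := by
  induction N with
  | zero => exact ⟨0, by simp, by simp⟩
  | succ N ih =>
    obtain ⟨ε, hε, h⟩ := ih
    set t : ℝ := ∑ l ∈ range N, ε l * B N l + ∑ j ∈ range N, ε j * B j N with ht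
    set σ : ℝ := if 0 ≤ t then 1 else -1 with hσ
    have hσ2 : σ * σ = 1 := by rw [hσ]; split_ifs <;> norm_num
    have hσt : 0 ≤ σ * t := by rw [hσ]; split_ifs with h1 <;> linarith
    refine ⟨Function.update ε N σ, fun i => ?_, ?_⟩
    · by_cases hi : i = N
      · subst hi; rw [Function.update_self, hσ]; split_ifs <;> norm_num
      · rw [Function.update_of_ne hi]; exact hε i
    · have hu : ∀ j ∈ range N, Function.update ε N σ j = ε j := fun j hj =>
        Function.update_of_ne (by simp at hj; omega) _ _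
      rw [sum_range_succ, sum_range_succ, sum_range_succ, Function.update_self]
      have e1 : ∑ j ∈ range N, ∑ l ∈ range (N + 1),
          Function.update ε N σ j * Function.update ε N σ l * B j l
          = ∑ j ∈ range N, ∑ l ∈ range N, ε j * ε l * B j l
            + σ * ∑ j ∈ range N, ε j * B j N := by
        rw [mul_sum, ← sum_add_distrib]
        refine sum_congr rfl fun j hj => ?_
        rw [sum_range_succ, Function.update_self, hu j hj]
        congr 1
        · exact sum_congr rfl fun l hl => by rw [hu l hl]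
        · ring
      have e2 : ∑ l ∈ range N, σ * Function.update ε N σ l * B N l
          = σ * ∑ l ∈ range N, ε l * B N l := by
        rw [mul_sum]
        exact sum_congr rfl fun l hl => by rw [hu l hl]; ring
      rw [e1, e2, hσ2]
      have : σ * t = σ * ∑ l ∈ range N, ε l * B N l + σ * ∑ j ∈ range N, ε j * B j N := by
        rw [ht]; ring
      linarith

theorem BSS.tendsto_zero {H : Type} [NormedAddCommGroup H] [InnerProductSpace ℝ H] {y : ℕ → H}
    {C : ℝ} (h : BSS y C) : Tendsto y atTop (𝓝 0) := by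
  have hs : Summable fun i => ‖y i‖ ^ 2 := by
    refine summable_of_sum_range_le (c := C ^ 2) (fun _ => by positivity) fun N => ?_
    obtain ⟨ε, hε, hle⟩ := exists_signs (fun j l => ⟪y j, y l⟫) N
    have e : ∑ j ∈ range N, ∑ l ∈ range N, ε j * ε l * ⟪y j, y l⟫
        = ‖∑ i ∈ range N, ε i • y i‖ ^ 2 := by
      rw [← real_inner_self_eq_norm_sq, sum_inner]
      refine sum_congr rfl fun j _ => ?_
      rw [inner_sum]
      refine sum_congr rfl fun l _ => ?_
      rw [real_inner_smul_left, real_inner_smul_right]; ring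
    simp only [real_inner_self_eq_norm_sq] at hle
    rw [e] at hle
    refine hle.trans ?_
    have := h (range N) ε hε
    gcongr
  have h2 := hs.tendsto_atTop_zero
  rw [tendsto_zero_iff_norm_tendsto_zero]
  have h3 := (Real.continuous_sqrt.tendsto 0).comp h2
  simpa [Function.comp_def, Real.sqrt_sq] using h3

section L1
variable {X : Type} [NormedAddCommGroup X] [NormedSpace ℝ X]

omit [NormedSpace ℝ X] in
theorem lp1_hasSum (f : lp (fun _ : ℕ => X) 1) : HasSum (fun i => ‖f i‖) ‖f‖ := by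
  have := lp.hasSum_norm (p := 1) (by norm_num) f
  simpa using this

omit [NormedSpace ℝ X] in
theorem lp1_add_ge (a z : lp (fun _ : ℕ => X) 1) (m : ℕ) :
    ‖z‖ - ‖a‖ + 2 * (∑ k ∈ range m, ‖a k‖ - ∑ k ∈ range m, ‖z k‖) ≤ ‖a + z‖ := by
  have h1 : HasSum (fun k => if k ∈ range m then ‖a k‖ - ‖z k‖ else 0)
      (∑ k ∈ range m, ‖a k‖ - ∑ k ∈ range m, ‖z k‖) := by
    rw [← sum_sub_distrib]
    have : ∑ k ∈ range m, (‖a k‖ - ‖z k‖)
        = ∑ k ∈ range m, (if k ∈ range m then ‖a k‖ - ‖z k‖ else 0) :=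
      sum_congr rfl fun k hk => by rw [if_pos hk]
    rw [this]
    exact hasSum_sum_of_ne_finset_zero fun k hk => if_neg hk
  have h2 := ((lp1_hasSum z).sub (lp1_hasSum a)).add (h1.mul_left 2)
  refine hasSum_le (fun k => ?_) h2 (lp1_hasSum (a + z))
  simp only [lp.coeFn_add, Pi.add_apply]
  have h3 : ‖a k‖ ≤ ‖a k + z k‖ + ‖z k‖ := by
    simpa using norm_sub_le (a k + z k) (z k)
  have h4 : ‖z k‖ ≤ ‖a k + z k‖ + ‖a k‖ := by
    simpa using norm_sub_le (a k + z k) (a k)
  split_ifs <;> linarith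

theorem not_BSS_lp1 {z : ℕ → lp (fun _ : ℕ => X) 1} {C c : ℝ} (hc : 0 < c)
    (hz : ∀ᶠ i in atTop, c ≤ ‖z i‖) (h0 : ∀ k, Tendsto (fun i => z i k) atTop (𝓝 0))
    (h : BSS z C) : False := by
  have key : ∀ N : ℕ, ∃ F : Finset ℕ, N * (c / 2) ≤ ‖∑ i ∈ F, z i‖ := by
    intro N
    induction N with
    | zero => exact ⟨∅, by simp⟩
    | succ N ih =>
      obtain ⟨F, hF⟩ := ih
      set a := ∑ i ∈ F, z i
      have ht := (lp1_hasSum a).tendsto_sum_nat
      obtain ⟨m, hm⟩ := (ht.eventually (lt_mem_nhds (show ‖a‖ - c / 8 < ‖a‖ by linarith))).exists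
      have h1 : Tendsto (fun i => ∑ k ∈ range m, ‖z i k‖) atTop (𝓝 0) := by
        have := tendsto_finsetSum (range m) fun k _ => (h0 k).norm
        simpa using this
      have h2 := h1.eventually (gt_mem_nhds (show (0 : ℝ) < c / 8 by linarith))
      have h3 : ∀ᶠ i in atTop, i ∉ F := by
        rw [← Nat.cofinite_eq_atTop]; exact F.eventually_cofinite_notMem
      obtain ⟨i, ⟨hi1, hi2⟩, hi3⟩ := ((hz.and h2).and h3).exists
      refine ⟨insert i F, ?_⟩
      rw [sum_insert hi3, add_comm (z i)]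
      have := lp1_add_ge a (z i) m
      push_cast
      linarith
  obtain ⟨N, hN⟩ := exists_nat_gt (C / (c / 2))
  obtain ⟨F, hF⟩ := key N
  have := h F 1 (by simp)
  simp only [Pi.one_apply, one_smul] at this
  rw [div_lt_iff₀ (by linarith)] at hN
  linarith

end L1

end Crest.Agent.R091
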