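import Crest.Agent.R091.Reg

set_option autoImplicit false
set_option linter.unusedSectionVars false

/-! Sequences normed by atoms of the first kind. -/

namespace Crest.Agent.R091

open Filter Finset TopologicalSpace
open scoped Topology ZeroAtInfty RealInnerProductSpace

noncomputable section

theorem ultra_cases {α : Type} (U : Ultrafilter ℕ) (f : ℕ → α) :
    (∀ s : Set α, s.Finite → ∀ᶠ i in U, f i ∉ s) ∨ ∃ a, ∀ᶠ i in U, f i = a := by
  rcases (U.map f).le_cofinite_or_eq_pure with h | ⟨a, h⟩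
  · exact Or.inl fun s hs => h hs.compl_mem_cofinite
  · refine Or.inr ⟨a, ?_⟩
    have : {a} ∈ U.map f := by rw [h]; exact mem_pure.2 rfl
    exact this

theorem ultra_nat (U : Ultrafilter ℕ) (f : ℕ → ℕ) :
    (∀ m, ∀ᶠ i in U, m ≤ f i) ∨ ∃ a, ∀ᶠ i in U, f i = a := by
  refine (ultra_cases U f).imp_left fun h m => ?_
  filter_upwards [h _ (Set.finite_Iio m)] with i hi
  simpa using hi

theorem ultra_coarse (U : Ultrafilter ℕ) (t : ℕ → ℝ) (h : ¬ ∀ t₀, ∀ᶠ i in U, t i ≤ t₀) :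
    ∀ᶠ i in U, ∀ᶠ j in U, t i - 1 ≤ t j := by
  by_contra h1
  apply h
  have h2 : ∀ᶠ i in U, ∀ᶠ j in U, t j < t i - 1 := by
    filter_upwards [Ultrafilter.eventually_not.2 h1] with i hi
    filter_upwards [Ultrafilter.eventually_not.2 hi] with j hj
    exact not_le.1 hj
  obtain ⟨i₀, hi₀⟩ := h2.exists
  have key : ∀ k : ℕ, ∀ᶠ j in U, t j ≤ t i₀ - k := by
    intro k
    induction k with
    | zero => filter_upwards [hi₀] with j hj; push_cast; linarith
    | succ k ih =>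
      obtain ⟨i, a1, a2⟩ := (ih.and h2).exists
      filter_upwards [a2] with j hj
      push_cast; linarith
  intro t₀
  obtain ⟨k, hk⟩ := exists_nat_ge (t i₀ - t₀)
  filter_upwards [key k] with j hj
  linarith

theorem finite_lists (r m : ℕ) : {l : List ℕ | l.length = r ∧ ∀ a ∈ l, a < m}.Finite := by
  refine ((List.finite_length_eq (Fin m) r).image (List.map Fin.val)).subset ?_
  rintro l ⟨h1, h2⟩
  refine ⟨l.attach.map fun a => ⟨a.1, h2 a.1 a.2⟩, by simpa using h1, ?_⟩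
  simp [List.map_map, Function.comp_def]

variable {K A : Type} [NormedAddCommGroup K] [InnerProductSpace ℝ K]
  [NormedAddCommGroup A] [InnerProductSpace ℝ A] [CompleteSpace A] [SeparableSpace (HA A)]
  {V : Hotel K A} {Λ : Loc (MM K A)} {𝒜 : Addr Λ eta}
  {Q : Type} [NormedAddCommGroup Q] [NormedSpace ℝ Q] {G : MM K A → Q}

variable (V 𝒜 G) in
/-- projections onto the atoms of the first kind -/
structure Pr where
  P : ℕ × List ℕ → Q →L[ℝ] HA A
  le : ∀ x y, ‖P x y‖ ≤ ‖y‖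
  eq : ∀ x p, P x (G p) = blk V 𝒜 x p

namespace Pr

variable (W : Pr V 𝒜 G)

/-- scalar functional -/
def fn (ξ : HA A) (x : ℕ × List ℕ) : Q →L[ℝ] ℝ := (innerSL ℝ ξ).comp (W.P x)

theorem fn_apply (ξ : HA A) (x : ℕ × List ℕ) (y : Q) : W.fn ξ x y = ⟪ξ, W.P x y⟫ := rfl

theorem norm_fn_le (ξ : HA A) (x : ℕ × List ℕ) : ‖W.fn ξ x‖ ≤ ‖ξ‖ :=
  ContinuousLinearMap.opNorm_le_bound _ (norm_nonneg _) fun y =>
    (abs_real_inner_le_norm ξ (W.P x y)).trans (by gcongr; exact W.le x y)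

/-- cut functional -/
def cfn (ξ : HA A) (n : ℕ) (l : List ℕ) (m : ℕ) : Q →L[ℝ] ℝ :=
  W.fn ξ (n, l) - (2 * SS) • W.fn ξ (n, m :: l)

theorem cfn_G (ξ : HA A) (n : ℕ) (l : List ℕ) (m : ℕ) (p : MM K A) :
    W.cfn ξ n l m (G p) = ⟪ξ, cut V 𝒜 n l m p⟫ := by
  simp only [cfn, sub_apply, smul_apply, fn_apply, W.eq, cut, inner_sub_right,
    real_inner_smul_right, smul_eq_mul]

theorem norm_cfn_le {ξ : HA A} (hξ : ‖ξ‖ ≤ 2) (n : ℕ) (l : List ℕ) (m : ℕ) :
    ‖W.cfn ξ n l m‖ ≤ 2 * (1 + 2 * SS) := by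
  refine (norm_sub_le _ _).trans ?_
  have := SS_pos
  rw [norm_smul, Real.norm_of_nonneg (by positivity)]
  nlinarith [W.norm_fn_le ξ (n, l), W.norm_fn_le ξ (n, m :: l)]

theorem cfn_lip {ξ : HA A} (hξ : ‖ξ‖ ≤ 2) (n : ℕ) (l : List ℕ) (m : ℕ) (p p' : MM K A) :
    |W.cfn ξ n l m (G p) - W.cfn ξ n l m (G p')| ≤ 2 * (1 + 2 * SS) * ‖p - p'‖ := by
  rw [cfn_G, cfn_G, ← inner_sub_right]
  refine (abs_real_inner_le_norm _ _).trans ?_
  rw [mul_assoc]
  gcongr
  exact cut_lip V 𝒜 _ _ _ p p'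

theorem tendsto_cons (n : ℕ) (l : List ℕ) {y : Q} (hy : y ∈ cspan G) :
    Tendsto (fun m => W.P (n, m :: l) y) atTop (𝓝 0) := by
  refine tendsto_of_cspan (fun m => W.P (n, m :: l)) (C := 1)
    (fun m y => by simpa using W.le _ y) (fun p => ?_) hy
  refine squeeze_zero_norm (a := fun m => SS ^ (l.length + 1) * sig m p) (fun m => ?_) ?_
  · rw [W.eq]
    exact (norm_blk_le V 𝒜 _ p).trans (lam_cons_le_sig n m l p)
  · simpa using (sig_tendsto p).const_mul (SS ^ (l.length + 1))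

theorem cfn_good {ξ : HA A} {n : ℕ} {l : List ℕ} {y : Q} (hy : y ∈ cspan G) {c : ℝ} (hc : 0 < c)
    (h : c ≤ ⟪ξ, W.P (n, l) y⟫) : ∀ᶠ m in atTop, c / 2 ≤ W.cfn ξ n l m y := by
  have h1 : Tendsto (fun m => W.cfn ξ n l m y) atTop (𝓝 (⟪ξ, W.P (n, l) y⟫ - 2 * SS * ⟪ξ, 0⟫)) :=
    tendsto_const_nhds.sub
      ((tendsto_const_nhds.inner (𝕜 := ℝ) (W.tendsto_cons n l hy)).const_mul _)
  rw [inner_zero_right, mul_zero, sub_zero] at h1
  exact h1.eventually (le_mem_nhds (by linarith))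

end Pr

theorem unit_inner {h : HA A} {c : ℝ} (hc : 0 < c) (hh : c ≤ ‖h‖) :
    ‖‖h‖⁻¹ • h‖ = 1 ∧ ⟪‖h‖⁻¹ • h, h⟫ = ‖h‖ := by
  have h0 : 0 < ‖h‖ := hc.trans_le hh
  constructor
  · rw [norm_smul, norm_inv, norm_norm, inv_mul_cancel₀ h0.ne']
  · rw [real_inner_smul_left, real_inner_self_eq_norm_sq]; field_simp

theorem rho_pos_of_cut {n : ℕ} {l : List ℕ} {m : ℕ} {p : MM K A} (h : cut V 𝒜 n l m p ≠ 0) :
    0 < ‖p n‖ :=
  ((lam_nonneg _ _ p).trans_lt (cut_ne_zero V 𝒜 h)).trans_le (lam_le _ _ p)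

theorem loc_of_ne {t : ℝ} {p₀ p : MM K A} {d : HA A} {n : ℕ} {l : List ℕ} {m : ℕ}
    (h : ⟪res ((𝒜.finite_supp t p₀).toFinset : Set I) d, cut V 𝒜 n l m p⟫ ≠ 0) :
    cut V 𝒜 n l m p ≠ 0 ∧ |eta * Real.log ‖p n‖ - t| < 2 ∧
      ∃ i, 𝒜.u t p₀ i ≠ 0 ∧ 𝒜.u (eta * Real.log ‖p n‖) p i ≠ 0 := by
  obtain ⟨i, hi, h1⟩ := inner_res_ne_zero h
  have h2 : 𝒜.u t p₀ i ≠ 0 := by simpa using hi
  have h3 : 𝒜.u (eta * Real.log ‖p n‖) p i ≠ 0 := fun h0 => h1 (cut_apply_eq_zero V 𝒜 n l m h0)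
  refine ⟨fun h0 => h (by rw [h0, inner_zero_right]), ?_, i, h2, h3⟩
  have a1 := abs_lt.1 (𝒜.supp _ _ _ h2).1
  have a2 := abs_lt.1 (𝒜.supp _ _ _ h3).1
  rw [abs_lt]
  constructor <;> linarith

theorem comb_of_blk (hΛ : Good V Λ) (E : Ev (fam 𝒜 hΛ) G) (W : Pr V 𝒜 G) (U : Ultrafilter ℕ)
    (hU : (U : Filter ℕ) ≤ atTop) {y : ℕ → Q} (hy : ∀ i, y i ∈ cspan G) {C c : ℝ} (hB : BSS y C)
    (hc : 0 < c) (x : ℕ → ℕ × List ℕ) (hx : ∀ᶠ i in U, c ≤ ‖W.P (x i) (y i)‖) : Comb G y := by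
  have hS := SS_pos
  have hι : Tendsto Prod.fst ((U : Filter ℕ).curry (atTop : Filter ℕ)) atTop :=
    (tendsto_fst.mono_left curry_le_prod).mono_right hU
  set h : ℕ → HA A := fun i => W.P (x i) (y i) with hh
  rcases ultra_nat U (fun i => (x i).2.length) with hr | ⟨r, hr⟩
  · -- long lists
    refine comb_of_small (c := c) (K := 1) hc fun ε hε => ?_
    obtain ⟨r, hr₀⟩ := exists_pow_lt_of_lt_one hε (show (1 / 2 : ℝ) < 1 by norm_num)
    refine Frequently.filter_mono (Eventually.frequently ?_) hU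
    filter_upwards [hx, hr r] with i h1 h2
    obtain ⟨a1, a2⟩ := unit_inner hc h1
    refine ⟨W.fn (‖h i‖⁻¹ • h i) (x i), h1.trans_eq a2.symm,
      (W.norm_fn_le _ _).trans_eq a1, fun p p' => ?_⟩
    rw [Pr.fn_apply, Pr.fn_apply, ← inner_sub_right, W.eq, W.eq]
    refine (abs_real_inner_le_norm _ _).trans ?_
    rw [a1, one_mul]
    refine (blk_lip V 𝒜 _ p p').trans ?_
    gcongr
    exact (pow_le_pow_of_le_one (by norm_num) (by norm_num) h2).trans hr₀.le
  rcases ultra_nat U (fun i => (x i).1) with hn | ⟨n, hn⟩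
  swap
  · -- fixed block
    rcases ultra_cases U x with hx' | ⟨x₀, hx'⟩
    · refine comb_of_disjoint (c := c / 2) (K := 2 * (1 + 2 * SS)) (C := 2 * (1 + 2 * SS))
        (by positivity) (by positivity) ((U : Filter ℕ).curry atTop) Prod.fst
        (fun z => W.cfn (‖h z.1‖⁻¹ • h z.1) (x z.1).1 (x z.1).2 z.2) hι ?_ ?_
      · rw [eventually_curry_iff]
        filter_upwards [hx] with i h1
        obtain ⟨a1, a2⟩ := unit_inner hc h1
        have a3 : ‖‖h i‖⁻¹ • h i‖ ≤ 2 := a1.trans_le one_le_two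
        filter_upwards [W.cfn_good (n := (x i).1) (l := (x i).2) (hy i) hc (h1.trans_eq a2.symm)]
          with m hm
        exact ⟨hm, W.norm_cfn_le a3 _ _ _, W.cfn_lip a3 _ _ _⟩
      · rw [eventually_curry_iff]
        filter_upwards [hr, hn] with i h1 h2
        refine Eventually.of_forall fun m => ?_
        rw [eventually_curry_iff]
        filter_upwards [hr, hn, hx' _ ((Set.finite_singleton n).prod (finite_lists r m))]
          with j h3 h4 h5
        refine Eventually.of_forall fun m' p => ?_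
        by_contra h6
        push Not at h6
        simp only [Pr.cfn_G] at h6
        have b1 : cut V 𝒜 (x i).1 (x i).2 m p ≠ 0 := fun h0 => h6.1 (by rw [h0, inner_zero_right])
        have b2 : cut V 𝒜 (x j).1 (x j).2 m' p ≠ 0 := fun h0 => h6.2 (by rw [h0, inner_zero_right])
        have b3 := lam_cut_imp (cut_ne_zero V 𝒜 b1)
        have b4 := lam_pos_imp ((lam_nonneg _ _ p).trans_lt (cut_ne_zero V 𝒜 b2))
        have b5 : ∃ a ∈ (x j).2, m ≤ a := by
          by_contra h7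
          push Not at h7
          exact h5 ⟨h4, h3, h7⟩
        obtain ⟨a, ha, ha'⟩ := b5
        have b6 := b4 a ha
        rw [h1, h2, pow_succ] at b3
        rw [h3, h4] at b6
        have b7 : SS ^ r * sig a p ≤ SS ^ r * sig m p := by gcongr; exact sig_anti ha' p
        have b8 : 0 ≤ SS ^ r * sig m p := mul_nonneg (by positivity) (sig_nonneg m p)
        nlinarith [four_le_SS, norm_nonneg (p n)]
    · exfalso
      have h2 := ((hB.map (W.P x₀)).tendsto_zero.norm.mono_left hU).eventually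
        (gt_mem_nhds (by simpa using hc))
      obtain ⟨i, ⟨a1, a2⟩, a3⟩ := ((hx'.and h2).and hx).exists
      simp only [a1] at a3
      linarith
  by_cases hsmall : ∀ ε > (0 : ℝ), ∀ᶠ i in U, ∀ t p, ‖res {j | 𝒜.u t p j ≠ 0} (h i)‖ ≤ ε
  · -- spread out
    refine comb_of_small (c := c) (K := 1) hc fun ε hε => ?_
    refine Frequently.filter_mono (Eventually.frequently ?_) hU
    filter_upwards [hx, hsmall (ε * c / 2) (by positivity)] with i h1 h2
    obtain ⟨a1, a2⟩ := unit_inner hc h1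
    refine ⟨W.fn (‖h i‖⁻¹ • h i) (x i), h1.trans_eq a2.symm,
      (W.norm_fn_le _ _).trans_eq a1, fun p p' => ?_⟩
    rw [Pr.fn_apply, Pr.fn_apply, ← inner_sub_right, W.eq, W.eq]
    have e : res ({j | un 𝒜 (x i).1 p j ≠ 0} ∪ {j | un 𝒜 (x i).1 p' j ≠ 0})
        (blk V 𝒜 (x i) p - blk V 𝒜 (x i) p') = blk V 𝒜 (x i) p - blk V 𝒜 (x i) p' := by
      refine res_eq_self fun j hj => ?_
      simp only [Set.mem_union, Set.mem_ofPred_eq, not_or, not_not] at hj
      rw [lp.coeFn_sub, Pi.sub_apply, blk_apply_eq_zero V 𝒜 _ hj.1, blk_apply_eq_zero V 𝒜 _ hj.2,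
        sub_zero]
    rw [← e, ← inner_res]
    refine (abs_real_inner_le_norm _ _).trans ?_
    gcongr
    · rw [res_smul, norm_smul, norm_inv, norm_norm, inv_mul_eq_div, div_le_iff₀ (hc.trans_le h1)]
      refine (norm_res_union_le _ _ _).trans ?_
      have : ε * c ≤ ε * ‖h i‖ := by gcongr
      linarith [h2 (eta * Real.log ‖p (x i).1‖) p, h2 (eta * Real.log ‖p' (x i).1‖) p',
        show ‖res {j | un 𝒜 (x i).1 p j ≠ 0} (h i)‖ ≤ ε * c / 2 from h2 _ p,
        show ‖res {j | un 𝒜 (x i).1 p' j ≠ 0} (h i)‖ ≤ ε * c / 2 from h2 _ p']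
    · exact blk_lip_one V 𝒜 _ p p'
  -- concentrated
  push Not at hsmall
  obtain ⟨c', hc', hbig⟩ := hsmall
  have hbig' : ∀ᶠ i in U, ∃ z : ℝ × MM K A × ℕ, c' / 2 ≤
      ⟪res ((𝒜.finite_supp z.1 z.2.1).toFinset : Set I) (dd A z.2.2), h i⟫ := by
    filter_upwards [hbig] with i ⟨t, p, h1⟩
    obtain ⟨a1, a2⟩ := unit_inner hc' h1.le
    obtain ⟨e, he⟩ := exists_dd a1.le
    refine ⟨(t, p, e), ?_⟩
    rw [Set.Finite.coe_toFinset, inner_res]
    set g := res {j | 𝒜.u t p j ≠ 0} (h i)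
    have a3 : ⟪dd A e, g⟫ = ‖g‖ + ⟪dd A e - ‖g‖⁻¹ • g, g⟫ := by
      rw [inner_sub_left, a2]; ring
    have a4 := abs_real_inner_le_norm (dd A e - ‖g‖⁻¹ • g) g
    have a5 : ‖dd A e - ‖g‖⁻¹ • g‖ * ‖g‖ ≤ 1 / 2 * ‖g‖ := by gcongr
    linarith [neg_abs_le ⟪dd A e - ‖g‖⁻¹ • g, g⟫]
  obtain ⟨z, hz⟩ := hbig'.choice
  set ξ : ℕ → HA A := fun i =>
    res ((𝒜.finite_supp (z i).1 (z i).2.1).toFinset : Set I) (dd A (z i).2.2) with hξ
  have hξ2 : ∀ i, ‖ξ i‖ ≤ 2 := fun i => (norm_res_le _ _).trans (norm_dd_le _)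
  have hgood : ∀ᶠ i in U, ∀ᶠ m in atTop, c' / 2 / 2 ≤ W.cfn (ξ i) (x i).1 (x i).2 m (y i) := by
    filter_upwards [hz] with i h1
    exact W.cfn_good (n := (x i).1) (l := (x i).2) (hy i) (by positivity) h1
  by_cases hfine : ∀ t₀, ∀ᶠ i in U, (z i).1 ≤ t₀
  · obtain ⟨m, hm⟩ := (hgood.mono fun i hi => hi.exists).choice
    refine comb_of_fine E U hU hy (c := c' / 2 / 2) (K := 2 * (1 + 2 * SS)) (by positivity)
      (fun i => ((x i).1, (x i).2, m i, (z i).2.2, (𝒜.finite_supp (z i).1 (z i).2.1).toFinset))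
      (fun i => W.cfn (ξ i) (x i).1 (x i).2 (m i)) (fun _ _ => 1) (fun _ => 0)
      (fun i => (z i).2.1) ?_ fun ε hε => ?_
    · filter_upwards [hm] with i h1
      refine ⟨h1, W.norm_cfn_le (hξ2 i) _ _ _, fun p p' => ?_, fun _ => ⟨zero_le_one, le_rfl⟩,
        0, le_rfl, by simp⟩
      simp only [Pr.cfn_G, one_mul, sub_zero]
      rfl
    · obtain ⟨t₀, ht₀⟩ := 𝒜.prop ε hε
      filter_upwards [hfine t₀, hfine (eta * Real.log (ε / 2) - 2)] with i h1 h2
      refine ⟨fun p p' => by simp; positivity, fun p hp => ?_, fun p => ?_⟩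
      · rw [one_mul, sub_zero] at hp
        obtain ⟨-, -, j, a1, a2⟩ := loc_of_ne hp
        rw [Λ.comm]
        exact ht₀ _ h1 _ _ _ j a1 a2
      · rw [one_mul, sub_zero]
        change |⟪ξ i, cut V 𝒜 (x i).1 (x i).2 (m i) p⟫| ≤ ε
        by_cases hp : ⟪ξ i, cut V 𝒜 (x i).1 (x i).2 (m i) p⟫ = 0
        · rw [hp, abs_zero]; exact hε.le
        obtain ⟨a1, a2, -⟩ := loc_of_ne hp
        have a3 : Real.log ‖p (x i).1‖ ≤ Real.log (ε / 2) := by
          have : eta * Real.log ‖p (x i).1‖ ≤ eta * Real.log (ε / 2) := by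
            linarith [(abs_lt.1 a2).2]
          exact le_of_mul_le_mul_left this eta_pos
        rw [Real.log_le_log_iff (rho_pos_of_cut a1) (by positivity)] at a3
        refine (abs_real_inner_le_norm _ _).trans ?_
        calc _ ≤ 2 * ‖p (x i).1‖ := by
              gcongr
              exacts [hξ2 i, norm_cut_le V 𝒜 _ _ _ p]
          _ ≤ ε := by linarith
  · refine comb_of_disjoint (c := c' / 2 / 2) (K := 2 * (1 + 2 * SS)) (C := 2 * (1 + 2 * SS))
      (by positivity) (by positivity) ((U : Filter ℕ).curry atTop) Prod.fst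
      (fun w => W.cfn (ξ w.1) (x w.1).1 (x w.1).2 w.2) hι ?_ ?_
    · rw [eventually_curry_iff]
      filter_upwards [hgood] with i h1
      filter_upwards [h1] with m hm
      exact ⟨hm, W.norm_cfn_le (hξ2 i) _ _ _, W.cfn_lip (hξ2 i) _ _ _⟩
    · rw [eventually_curry_iff]
      filter_upwards [ultra_coarse U (fun i => (z i).1) hfine] with i h1
      refine Eventually.of_forall fun m => ?_
      rw [eventually_curry_iff]
      filter_upwards [h1, hn m] with j h3 h4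
      refine Eventually.of_forall fun m' p => ?_
      by_contra h6
      push Not at h6
      simp only [Pr.cfn_G] at h6
      obtain ⟨a1, a2, -⟩ := loc_of_ne h6.1
      obtain ⟨b1, b2, -⟩ := loc_of_ne h6.2
      have c1 := lam_cut_imp' (cut_ne_zero V 𝒜 a1)
      have c2 := le_sig h4 p
      have c3 : Real.exp (5 / eta) * ‖p (x j).1‖ ≤ ‖p (x i).1‖ := by
        have : SS * ‖p (x j).1‖ ≤ SS * sig m p := by gcongr
        unfold SS at this c1
        linarith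
      have c4 := Real.log_le_log (mul_pos (Real.exp_pos _) (rho_pos_of_cut b1)) c3
      rw [Real.log_mul (Real.exp_pos _).ne' (rho_pos_of_cut b1).ne', Real.log_exp] at c4
      have c5 : eta * (5 / eta + Real.log ‖p (x j).1‖) ≤ eta * Real.log ‖p (x i).1‖ := by
        have := eta_pos.le
        gcongr
      rw [mul_add, mul_div_cancel₀ _ eta_pos.ne'] at c5
      linarith [(abs_lt.1 a2).2, (abs_lt.1 b2).1]

end

end Crest.Agent.R091
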